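import Vale.Agent.P154.Algebra

/-!
Permutation averages of the moment polynomials used for the antiferromagnetic three-state kernel.
-/

namespace Vale.Agent.P154.AF

/-- The pairing `⟨u,w⟩` for `u = (x, y, -x-y)`. -/
noncomputable def xP (x y a b c : ℝ) : ℝ := (x * a + y * b + (-x - y) * c) / 3

/-- Second moment of the product. -/
noncomputable def na (x y a b c : ℝ) : ℝ :=
  (((1 + x) * (1 + a)) ^ 2 + ((1 + y) * (1 + b)) ^ 2 + ((1 + (-x - y)) * (1 + c)) ^ 2) / 3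

/-- Third moment of the product. -/
noncomputable def nb (x y a b c : ℝ) : ℝ :=
  (((1 + x) * (1 + a)) ^ 3 + ((1 + y) * (1 + b)) ^ 3 + ((1 + (-x - y)) * (1 + c)) ^ 3) / 3

/-- Average over the rearrangements of `(p, q, -p-q)`. -/
noncomputable def six (G : ℝ → ℝ → ℝ → ℝ) (p q : ℝ) : ℝ :=
  (G p q (-p - q) + G q (-p - q) p + G (-p - q) p q + G q p (-p - q) + G p (-p - q) q
    + G (-p - q) q p) / 6

lemma avgNa0 (x y p q : ℝ) :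
    six (fun a b c => na x y a b c) p q =
      (0 : ℝ) + (1 : ℝ) + (1 : ℝ) * (iA p q) + (1 : ℝ) * (iA x y) + (1 : ℝ) * (iA x y) * (iA p q) := by
  simp only [six, xP, na, iA, iT]; ring

lemma avgNa1 (x y p q : ℝ) :
    six (fun a b c => na x y a b c * xP x y a b c) p q =
      (0 : ℝ) + (1 / 2 : ℝ) * (iT x y) * (iT p q) + (1 : ℝ) * (iT x y) * (iA p q)
      + (1 : ℝ) * (iA x y) * (iT p q) + (2 : ℝ) * (iA x y) * (iA p q) := by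
  simp only [six, xP, na, iA, iT]; ring

lemma avgNa2 (x y p q : ℝ) :
    six (fun a b c => na x y a b c * xP x y a b c ^ 2) p q =
      (0 : ℝ) + (2 : ℝ) * (iT x y) * (iT p q) + (1 / 2 : ℝ) * (iT x y) * (iA p q) ^ 2
      + (1 / 2 : ℝ) * (iA x y) * (iA p q) + (1 / 2 : ℝ) * (iA x y) * (iA p q) ^ 2
      + (1 / 2 : ℝ) * (iA x y) ^ 2 * (iT p q) + (1 / 2 : ℝ) * (iA x y) ^ 2 * (iA p q)
      + (5 / 8 : ℝ) * (iA x y) ^ 2 * (iA p q) ^ 2 := by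
  simp only [six, xP, na, iA, iT]; ring

lemma avgNa3 (x y p q : ℝ) :
    six (fun a b c => na x y a b c * xP x y a b c ^ 3) p q =
      (0 : ℝ) + (1 / 2 : ℝ) * (iT x y) * (iT p q) + (1 / 2 : ℝ) * (iT x y) * (iA p q) * (iT p q)
      + (1 / 2 : ℝ) * (iA x y) * (iT x y) * (iT p q)
      + (7 / 8 : ℝ) * (iA x y) * (iT x y) * (iA p q) * (iT p q)
      + (3 / 4 : ℝ) * (iA x y) * (iT x y) * (iA p q) ^ 2
      + (3 / 4 : ℝ) * (iA x y) ^ 2 * (iA p q) * (iT p q)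
      + (3 / 2 : ℝ) * (iA x y) ^ 2 * (iA p q) ^ 2 := by
  simp only [six, xP, na, iA, iT]; ring

lemma avgNa4 (x y p q : ℝ) :
    six (fun a b c => na x y a b c * xP x y a b c ^ 4) p q =
      (0 : ℝ) + (1 / 2 : ℝ) * (iT x y) ^ 2 * (iT p q) ^ 2
      + (1 / 2 : ℝ) * (iT x y) ^ 2 * (iA p q) * (iT p q)
      - (1 / 8 : ℝ) * (iT x y) ^ 2 * (iA p q) ^ 3
      + (1 / 2 : ℝ) * (iA x y) * (iT x y) * (iT p q) ^ 2
      + (5 / 2 : ℝ) * (iA x y) * (iT x y) * (iA p q) * (iT p q)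
      + (3 / 8 : ℝ) * (iA x y) * (iT x y) * (iA p q) ^ 3
      + (3 / 8 : ℝ) * (iA x y) ^ 2 * (iA p q) ^ 2 + (3 / 8 : ℝ) * (iA x y) ^ 2 * (iA p q) ^ 3
      - (1 / 8 : ℝ) * (iA x y) ^ 3 * (iT p q) ^ 2
      + (3 / 8 : ℝ) * (iA x y) ^ 3 * (iA p q) * (iT p q)
      + (3 / 8 : ℝ) * (iA x y) ^ 3 * (iA p q) ^ 2 + (17 / 32 : ℝ) * (iA x y) ^ 3 * (iA p q) ^ 3 := by
  simp only [six, xP, na, iA, iT]; ring

lemma avgNb0 (x y p q : ℝ) :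
    six (fun a b c => nb x y a b c) p q =
      (0 : ℝ) + (1 : ℝ) + (1 : ℝ) * (iT p q) + (3 : ℝ) * (iA p q) + (1 : ℝ) * (iT x y)
      + (1 : ℝ) * (iT x y) * (iT p q) + (3 : ℝ) * (iT x y) * (iA p q) + (3 : ℝ) * (iA x y)
      + (3 : ℝ) * (iA x y) * (iT p q) + (9 : ℝ) * (iA x y) * (iA p q) := by
  simp only [six, xP, nb, iA, iT]; ring

lemma avgNb1 (x y p q : ℝ) :
    six (fun a b c => nb x y a b c * xP x y a b c) p q =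
      (0 : ℝ) + (9 / 2 : ℝ) * (iT x y) * (iT p q) + (9 / 2 : ℝ) * (iT x y) * (iA p q)
      + (9 / 4 : ℝ) * (iT x y) * (iA p q) ^ 2 + (9 / 2 : ℝ) * (iA x y) * (iT p q)
      + (9 / 2 : ℝ) * (iA x y) * (iA p q) + (9 / 4 : ℝ) * (iA x y) * (iA p q) ^ 2
      + (9 / 4 : ℝ) * (iA x y) ^ 2 * (iT p q) + (9 / 4 : ℝ) * (iA x y) ^ 2 * (iA p q)
      + (9 / 8 : ℝ) * (iA x y) ^ 2 * (iA p q) ^ 2 := by
  simp only [six, xP, nb, iA, iT]; ring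

lemma avgNb2 (x y p q : ℝ) :
    six (fun a b c => nb x y a b c * xP x y a b c ^ 2) p q =
      (0 : ℝ) + (9 / 2 : ℝ) * (iT x y) * (iT p q) + (9 / 4 : ℝ) * (iT x y) * (iA p q) * (iT p q)
      + (9 / 4 : ℝ) * (iT x y) * (iA p q) ^ 2 + (1 / 2 : ℝ) * (iA x y) * (iA p q)
      + (1 / 2 : ℝ) * (iA x y) * (iA p q) * (iT p q) + (3 / 2 : ℝ) * (iA x y) * (iA p q) ^ 2
      + (9 / 4 : ℝ) * (iA x y) * (iT x y) * (iT p q)
      + (1 / 2 : ℝ) * (iA x y) * (iT x y) * (iA p q)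
      + (13 / 8 : ℝ) * (iA x y) * (iT x y) * (iA p q) * (iT p q)
      + (21 / 8 : ℝ) * (iA x y) * (iT x y) * (iA p q) ^ 2
      + (9 / 4 : ℝ) * (iA x y) ^ 2 * (iT p q) + (3 / 2 : ℝ) * (iA x y) ^ 2 * (iA p q)
      + (21 / 8 : ℝ) * (iA x y) ^ 2 * (iA p q) * (iT p q)
      + (45 / 8 : ℝ) * (iA x y) ^ 2 * (iA p q) ^ 2 := by
  simp only [six, xP, nb, iA, iT]; ring

lemma avgNb3 (x y p q : ℝ) :
    six (fun a b c => nb x y a b c * xP x y a b c ^ 3) p q =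
      (0 : ℝ) + (1 / 2 : ℝ) * (iT x y) * (iT p q) + (1 / 2 : ℝ) * (iT x y) * (iT p q) ^ 2
      + (3 / 2 : ℝ) * (iT x y) * (iA p q) * (iT p q) + (1 / 2 : ℝ) * (iT x y) ^ 2 * (iT p q)
      + (1 / 2 : ℝ) * (iT x y) ^ 2 * (iT p q) ^ 2
      + (3 / 2 : ℝ) * (iT x y) ^ 2 * (iA p q) * (iT p q)
      + (3 / 2 : ℝ) * (iA x y) * (iT x y) * (iT p q)
      + (3 / 2 : ℝ) * (iA x y) * (iT x y) * (iT p q) ^ 2
      + (63 / 8 : ℝ) * (iA x y) * (iT x y) * (iA p q) * (iT p q)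
      + (27 / 8 : ℝ) * (iA x y) * (iT x y) * (iA p q) ^ 2
      + (27 / 16 : ℝ) * (iA x y) * (iT x y) * (iA p q) ^ 3
      + (27 / 8 : ℝ) * (iA x y) ^ 2 * (iA p q) * (iT p q)
      + (27 / 8 : ℝ) * (iA x y) ^ 2 * (iA p q) ^ 2
      + (27 / 16 : ℝ) * (iA x y) ^ 2 * (iA p q) ^ 3
      + (27 / 16 : ℝ) * (iA x y) ^ 3 * (iA p q) * (iT p q)
      + (27 / 16 : ℝ) * (iA x y) ^ 3 * (iA p q) ^ 2
      + (27 / 32 : ℝ) * (iA x y) ^ 3 * (iA p q) ^ 3 := by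
  simp only [six, xP, nb, iA, iT]; ring

lemma avgNb4 (x y p q : ℝ) :
    six (fun a b c => nb x y a b c * xP x y a b c ^ 4) p q =
      (0 : ℝ) + (9 / 2 : ℝ) * (iT x y) ^ 2 * (iT p q) ^ 2
      + (9 / 4 : ℝ) * (iT x y) ^ 2 * (iA p q) * (iT p q)
      + (9 / 8 : ℝ) * (iT x y) ^ 2 * (iA p q) ^ 2 * (iT p q)
      - (9 / 8 : ℝ) * (iT x y) ^ 2 * (iA p q) ^ 3
      + (9 / 4 : ℝ) * (iA x y) * (iT x y) * (iT p q) ^ 2
      + (45 / 8 : ℝ) * (iA x y) * (iT x y) * (iA p q) * (iT p q)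
      + (45 / 16 : ℝ) * (iA x y) * (iT x y) * (iA p q) ^ 2 * (iT p q)
      + (27 / 16 : ℝ) * (iA x y) * (iT x y) * (iA p q) ^ 3
      + (3 / 8 : ℝ) * (iA x y) ^ 2 * (iA p q) ^ 2
      + (3 / 8 : ℝ) * (iA x y) ^ 2 * (iA p q) ^ 2 * (iT p q)
      + (9 / 8 : ℝ) * (iA x y) ^ 2 * (iA p q) ^ 3
      + (9 / 8 : ℝ) * (iA x y) ^ 2 * (iT x y) * (iT p q) ^ 2
      + (45 / 16 : ℝ) * (iA x y) ^ 2 * (iT x y) * (iA p q) * (iT p q)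
      + (3 / 8 : ℝ) * (iA x y) ^ 2 * (iT x y) * (iA p q) ^ 2
      + (57 / 32 : ℝ) * (iA x y) ^ 2 * (iT x y) * (iA p q) ^ 2 * (iT p q)
      + (63 / 32 : ℝ) * (iA x y) ^ 2 * (iT x y) * (iA p q) ^ 3
      - (9 / 8 : ℝ) * (iA x y) ^ 3 * (iT p q) ^ 2
      + (27 / 16 : ℝ) * (iA x y) ^ 3 * (iA p q) * (iT p q)
      + (9 / 8 : ℝ) * (iA x y) ^ 3 * (iA p q) ^ 2
      + (63 / 32 : ℝ) * (iA x y) ^ 3 * (iA p q) ^ 2 * (iT p q)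
      + (153 / 32 : ℝ) * (iA x y) ^ 3 * (iA p q) ^ 3 := by
  simp only [six, xP, nb, iA, iT]; ring

end Vale.Agent.P154.AF
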