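import Vale.Agent.P154.AF.Averages

/-!
Permutation averages of the squared second moment.
-/

namespace Vale.Agent.P154.AF

lemma avgNc0 (x y p q : ℝ) :
    six (fun a b c => na x y a b c ^ 2) p q =
      (0 : ℝ) + (1 : ℝ) + (2 : ℝ) * (iA p q) + (1 : ℝ) * (iA p q) ^ 2 + (8 : ℝ) * (iT x y) * (iT p q)
      + (8 : ℝ) * (iT x y) * (iA p q) + (1 : ℝ) * (iT x y) * (iA p q) ^ 2 + (2 : ℝ) * (iA x y)
      + (8 : ℝ) * (iA x y) * (iT p q) + (12 : ℝ) * (iA x y) * (iA p q)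
      + (3 : ℝ) * (iA x y) * (iA p q) ^ 2 + (1 : ℝ) * (iA x y) ^ 2
      + (1 : ℝ) * (iA x y) ^ 2 * (iT p q) + (3 : ℝ) * (iA x y) ^ 2 * (iA p q)
      + (9 / 8 : ℝ) * (iA x y) ^ 2 * (iA p q) ^ 2 := by
  simp only [six, xP, na, iA, iT]; ring

lemma avgNc1 (x y p q : ℝ) :
    six (fun a b c => na x y a b c ^ 2 * xP x y a b c) p q =
      (0 : ℝ) + (9 : ℝ) * (iT x y) * (iT p q) + (2 : ℝ) * (iT x y) * (iA p q)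
      + (2 : ℝ) * (iT x y) * (iA p q) * (iT p q) + (6 : ℝ) * (iT x y) * (iA p q) ^ 2
      + (2 : ℝ) * (iA x y) * (iT p q) + (4 : ℝ) * (iA x y) * (iA p q)
      + (2 : ℝ) * (iA x y) * (iA p q) * (iT p q) + (4 : ℝ) * (iA x y) * (iA p q) ^ 2
      + (2 : ℝ) * (iA x y) * (iT x y) * (iT p q) + (2 : ℝ) * (iA x y) * (iT x y) * (iA p q)
      + (9 / 8 : ℝ) * (iA x y) * (iT x y) * (iA p q) * (iT p q)
      + (5 / 2 : ℝ) * (iA x y) * (iT x y) * (iA p q) ^ 2 + (6 : ℝ) * (iA x y) ^ 2 * (iT p q)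
      + (4 : ℝ) * (iA x y) ^ 2 * (iA p q) + (5 / 2 : ℝ) * (iA x y) ^ 2 * (iA p q) * (iT p q)
      + (6 : ℝ) * (iA x y) ^ 2 * (iA p q) ^ 2 := by
  simp only [six, xP, na, iA, iT]; ring

lemma avgNc2 (x y p q : ℝ) :
    six (fun a b c => na x y a b c ^ 2 * xP x y a b c ^ 2) p q =
      (0 : ℝ) + (4 : ℝ) * (iT x y) * (iT p q) + (4 : ℝ) * (iT x y) * (iA p q) * (iT p q)
      + (1 : ℝ) * (iT x y) * (iA p q) ^ 2 + (1 : ℝ) * (iT x y) * (iA p q) ^ 3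
      + (1 / 2 : ℝ) * (iT x y) ^ 2 * (iT p q) ^ 2
      + (1 : ℝ) * (iT x y) ^ 2 * (iA p q) * (iT p q) + (1 : ℝ) * (iT x y) ^ 2 * (iA p q) ^ 2
      - (1 / 8 : ℝ) * (iT x y) ^ 2 * (iA p q) ^ 3 + (1 / 2 : ℝ) * (iA x y) * (iA p q)
      + (1 : ℝ) * (iA x y) * (iA p q) ^ 2 + (1 / 2 : ℝ) * (iA x y) * (iA p q) ^ 3
      + (4 : ℝ) * (iA x y) * (iT x y) * (iT p q) + (1 : ℝ) * (iA x y) * (iT x y) * (iT p q) ^ 2
      + (10 : ℝ) * (iA x y) * (iT x y) * (iA p q) * (iT p q)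
      + (7 : ℝ) * (iA x y) * (iT x y) * (iA p q) ^ 2
      + (5 / 4 : ℝ) * (iA x y) * (iT x y) * (iA p q) ^ 3 + (1 : ℝ) * (iA x y) ^ 2 * (iT p q)
      + (1 : ℝ) * (iA x y) ^ 2 * (iT p q) ^ 2 + (1 : ℝ) * (iA x y) ^ 2 * (iA p q)
      + (7 : ℝ) * (iA x y) ^ 2 * (iA p q) * (iT p q)
      + (33 / 4 : ℝ) * (iA x y) ^ 2 * (iA p q) ^ 2 + (3 / 2 : ℝ) * (iA x y) ^ 2 * (iA p q) ^ 3
      + (1 : ℝ) * (iA x y) ^ 3 * (iT p q) - (1 / 8 : ℝ) * (iA x y) ^ 3 * (iT p q) ^ 2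
      + (1 / 2 : ℝ) * (iA x y) ^ 3 * (iA p q)
      + (5 / 4 : ℝ) * (iA x y) ^ 3 * (iA p q) * (iT p q)
      + (3 / 2 : ℝ) * (iA x y) ^ 3 * (iA p q) ^ 2 + (27 / 32 : ℝ) * (iA x y) ^ 3 * (iA p q) ^ 3 := by
  simp only [six, xP, na, iA, iT]; ring

end Vale.Agent.P154.AF
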