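import Vale.Agent.P154.AF.IdCert
import Vale.Agent.P154.AF.Averages
import Vale.Agent.P154.CertApply

/-!
The higher permutation averages, checked at a Kronecker point.
-/

namespace Vale.Agent.P154.AF

open NPoly

variable {S : Type} [CommRing S] (ρ : ℕ → S)

lemma ev_diff3 (two : Bool) :
    ev ρ (diff3 two W.k vX vY vZ vV).v =
      diff3 two (fun n => (n : S)) (ρ 0) (ρ 1) (ρ 2) (ρ 3) := by
  cases two <;>
    simp only [diff3, Bool.false_eq_true, if_false, if_true, lhs3, rhs3, s1, s2, a3, t3,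
      ev_Wadd, ev_Wmul, ev_Wsub, ev_Wk, ev_vX, ev_vY, ev_vZ, ev_vV]

theorem okDiff3_false : certOK (fun {S} [Add S] [Mul S] [Sub S] => diff3 false)
    (kpt 24951 3120 439 56) ([] : P4) = true := by
  decide +kernel

theorem okDiff3_true : certOK (fun {S} [Add S] [Mul S] [Sub S] => diff3 true)
    (kpt 24951 3120 439 56) ([] : P4) = true := by
  decide +kernel

lemma ev_diff4 (two : Bool) :
    ev ρ (diff4 two W.k vX vY vZ vV).v =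
      diff4 two (fun n => (n : S)) (ρ 0) (ρ 1) (ρ 2) (ρ 3) := by
  cases two <;>
    simp only [diff4, Bool.false_eq_true, if_false, if_true, lhs4, rhs4, s1, s2, a3, t3,
      ev_Wadd, ev_Wmul, ev_Wsub, ev_Wk, ev_vX, ev_vY, ev_vZ, ev_vV]

theorem okDiff4_false : certOK (fun {S} [Add S] [Mul S] [Sub S] => diff4 false)
    (kpt 41885 4655 575 65) ([] : P4) = true := by
  decide +kernel

theorem okDiff4_true : certOK (fun {S} [Add S] [Mul S] [Sub S] => diff4 true)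
    (kpt 41885 4655 575 65) ([] : P4) = true := by
  decide +kernel

lemma ev_diff5 (two : Bool) :
    ev ρ (diff5 two W.k vX vY vZ vV).v =
      diff5 two (fun n => (n : S)) (ρ 0) (ρ 1) (ρ 2) (ρ 3) := by
  cases two <;>
    simp only [diff5, Bool.false_eq_true, if_false, if_true, lhs5, rhs5, s1, s2, a3, t3,
      ev_Wadd, ev_Wmul, ev_Wsub, ev_Wk, ev_vX, ev_vY, ev_vZ, ev_vV]

theorem okDiff5_false : certOK (fun {S} [Add S] [Mul S] [Sub S] => diff5 false)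
    (kpt 64309 6432 708 72) ([] : P4) = true := by
  decide +kernel

theorem okDiff5_true : certOK (fun {S} [Add S] [Mul S] [Sub S] => diff5 true)
    (kpt 64309 6432 708 72) ([] : P4) = true := by
  decide +kernel

lemma ev_diff6 (two : Bool) :
    ev ρ (diff6 two W.k vX vY vZ vV).v =
      diff6 two (fun n => (n : S)) (ρ 0) (ρ 1) (ρ 2) (ρ 3) := by
  cases two <;>
    simp only [diff6, Bool.false_eq_true, if_false, if_true, lhs6, rhs6, s1, s2, a3, t3,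
      ev_Wadd, ev_Wmul, ev_Wsub, ev_Wk, ev_vX, ev_vY, ev_vZ, ev_vV]

theorem okDiff6_false : certOK (fun {S} [Add S] [Mul S] [Sub S] => diff6 false)
    (kpt 97316 8848 878 81) ([] : P4) = true := by
  decide +kernel

theorem okDiff6_true : certOK (fun {S} [Add S] [Mul S] [Sub S] => diff6 true)
    (kpt 97316 8848 878 81) ([] : P4) = true := by
  decide +kernel

theorem avgNc3 (x y p q : ℝ) (hx : -1 ≤ x ∧ x ≤ 2) (hy : -1 ≤ y ∧ y ≤ 2)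
    (hp : -1 ≤ p ∧ p ≤ 2) (hq : -1 ≤ q ∧ q ≤ 2) :
    six (fun a b c => na x y a b c ^ 2 * xP x y a b c ^ 3) p q =
      (0 : ℝ) + (1 / 2 : ℝ) * (iT x y) * (iT p q) + (1 : ℝ) * (iT x y) * (iA p q) * (iT p q)
      + (1 / 2 : ℝ) * (iT x y) * (iA p q) ^ 2 * (iT p q)
      + (4 : ℝ) * (iT x y) ^ 2 * (iT p q) ^ 2 + (4 : ℝ) * (iT x y) ^ 2 * (iA p q) * (iT p q)
      + (1 / 2 : ℝ) * (iT x y) ^ 2 * (iA p q) ^ 2 * (iT p q)
      + (1 : ℝ) * (iA x y) * (iT x y) * (iT p q) + (4 : ℝ) * (iA x y) * (iT x y) * (iT p q) ^ 2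
      + (51 / 4 : ℝ) * (iA x y) * (iT x y) * (iA p q) * (iT p q)
      + (3 / 2 : ℝ) * (iA x y) * (iT x y) * (iA p q) ^ 2
      + (3 : ℝ) * (iA x y) * (iT x y) * (iA p q) ^ 2 * (iT p q)
      + (9 / 2 : ℝ) * (iA x y) * (iT x y) * (iA p q) ^ 3
      + (3 / 2 : ℝ) * (iA x y) ^ 2 * (iA p q) * (iT p q)
      + (3 : ℝ) * (iA x y) ^ 2 * (iA p q) ^ 2
      + (3 / 2 : ℝ) * (iA x y) ^ 2 * (iA p q) ^ 2 * (iT p q)
      + (3 : ℝ) * (iA x y) ^ 2 * (iA p q) ^ 3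
      + (1 / 2 : ℝ) * (iA x y) ^ 2 * (iT x y) * (iT p q)
      + (1 / 2 : ℝ) * (iA x y) ^ 2 * (iT x y) * (iT p q) ^ 2
      + (3 : ℝ) * (iA x y) ^ 2 * (iT x y) * (iA p q) * (iT p q)
      + (3 / 2 : ℝ) * (iA x y) ^ 2 * (iT x y) * (iA p q) ^ 2
      + (45 / 32 : ℝ) * (iA x y) ^ 2 * (iT x y) * (iA p q) ^ 2 * (iT p q)
      + (15 / 8 : ℝ) * (iA x y) ^ 2 * (iT x y) * (iA p q) ^ 3
      + (9 / 2 : ℝ) * (iA x y) ^ 3 * (iA p q) * (iT p q)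
      + (3 : ℝ) * (iA x y) ^ 3 * (iA p q) ^ 2
      + (15 / 8 : ℝ) * (iA x y) ^ 3 * (iA p q) ^ 2 * (iT p q)
      + (9 / 2 : ℝ) * (iA x y) ^ 3 * (iA p q) ^ 3 := by
  have rx : (0 ≤ (x + 1) / 3 ∧ (x + 1) / 3 ≤ 1) := by constructor <;> linarith [hx.1, hx.2]
  have ry : (0 ≤ (y + 1) / 3 ∧ (y + 1) / 3 ≤ 1) := by constructor <;> linarith [hy.1, hy.2]
  have rp : (0 ≤ (p + 1) / 3 ∧ (p + 1) / 3 ≤ 1) := by constructor <;> linarith [hp.1, hp.2]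
  have rq : (0 ≤ (q + 1) / 3 ∧ (q + 1) / 3 ≤ 1) := by constructor <;> linarith [hq.1, hq.2]
  have hfalse := cert_nonneg (fun {S} [Add S] [Mul S] [Sub S] => diff3 false) _ _ _ _ _ okDiff3_false
    (fun {S} [CommRing S] ρ => ev_diff3 ρ false) rfl (fun _ => rfl) _ _ _ _ rx ry rp rq
  have htrue := cert_nonneg (fun {S} [Add S] [Mul S] [Sub S] => diff3 true) _ _ _ _ _ okDiff3_true
    (fun {S} [CommRing S] ρ => ev_diff3 ρ true) rfl (fun _ => rfl) _ _ _ _ rx ry rp rq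
  have e3 : ∀ t : ℝ, (3 : ℤ) * ((t + 1) / 3) - (1 : ℤ) = t := fun t => by push_cast; ring
  simp only [diff3, Bool.false_eq_true, if_false, if_true, e3] at hfalse htrue
  have ex : ∀ a b c : ℝ, s1 (fun n => (n : ℝ)) x y a b c = 3 * xP x y a b c := fun a b c => by
    simp only [s1, xP]; push_cast; ring
  have en : ∀ a b c : ℝ, s2 (fun n => (n : ℝ)) x y a b c = 3 * na x y a b c := fun a b c => by
    simp only [s2, na]; push_cast; ring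
  have ea : ∀ a b : ℝ, a3 a b = 3 * iA a b := fun a b => by simp only [a3, iA]; ring
  have et : ∀ a b : ℝ, t3 a b = 3 * iT a b := fun a b => by simp only [t3, iT]; ring
  have ec : ((0 : ℤ) : ℝ) - p - q = -p - q := by push_cast; ring
  simp only [lhs3, rhs3, ec, ex, en, ea, et] at hfalse htrue
  simp only [six]
  have heq := le_antisymm (sub_nonneg.mp hfalse) (sub_nonneg.mp htrue)
  push_cast at heq
  linear_combination (-(1 / 23328) : ℝ) * heq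

theorem avgNc4 (x y p q : ℝ) (hx : -1 ≤ x ∧ x ≤ 2) (hy : -1 ≤ y ∧ y ≤ 2)
    (hp : -1 ≤ p ∧ p ≤ 2) (hq : -1 ≤ q ∧ q ≤ 2) :
    six (fun a b c => na x y a b c ^ 2 * xP x y a b c ^ 4) p q =
      (0 : ℝ) + (9 : ℝ) * (iT x y) ^ 2 * (iT p q) ^ 2 + (1 : ℝ) * (iT x y) ^ 2 * (iA p q) * (iT p q)
      + (1 : ℝ) * (iT x y) ^ 2 * (iA p q) * (iT p q) ^ 2
      + (3 : ℝ) * (iT x y) ^ 2 * (iA p q) ^ 2 * (iT p q)
      - (9 / 4 : ℝ) * (iT x y) ^ 2 * (iA p q) ^ 3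
      + (1 : ℝ) * (iA x y) * (iT x y) * (iT p q) ^ 2
      + (5 : ℝ) * (iA x y) * (iT x y) * (iA p q) * (iT p q)
      + (1 : ℝ) * (iA x y) * (iT x y) * (iA p q) * (iT p q) ^ 2
      + (5 : ℝ) * (iA x y) * (iT x y) * (iA p q) ^ 2 * (iT p q)
      + (3 / 4 : ℝ) * (iA x y) * (iT x y) * (iA p q) ^ 3
      + (3 / 4 : ℝ) * (iA x y) * (iT x y) * (iA p q) ^ 4
      + (1 : ℝ) * (iA x y) * (iT x y) ^ 2 * (iT p q) ^ 2
      + (1 : ℝ) * (iA x y) * (iT x y) ^ 2 * (iA p q) * (iT p q)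
      + (3 / 2 : ℝ) * (iA x y) * (iT x y) ^ 2 * (iA p q) * (iT p q) ^ 2
      + (2 : ℝ) * (iA x y) * (iT x y) ^ 2 * (iA p q) ^ 2 * (iT p q)
      + (3 / 4 : ℝ) * (iA x y) * (iT x y) ^ 2 * (iA p q) ^ 3
      - (3 / 8 : ℝ) * (iA x y) * (iT x y) ^ 2 * (iA p q) ^ 4
      + (3 / 8 : ℝ) * (iA x y) ^ 2 * (iA p q) ^ 2 + (3 / 4 : ℝ) * (iA x y) ^ 2 * (iA p q) ^ 3
      + (3 / 8 : ℝ) * (iA x y) ^ 2 * (iA p q) ^ 4
      + (3 : ℝ) * (iA x y) ^ 2 * (iT x y) * (iT p q) ^ 2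
      + (5 : ℝ) * (iA x y) ^ 2 * (iT x y) * (iA p q) * (iT p q)
      + (2 : ℝ) * (iA x y) ^ 2 * (iT x y) * (iA p q) * (iT p q) ^ 2
      + (21 / 2 : ℝ) * (iA x y) ^ 2 * (iT x y) * (iA p q) ^ 2 * (iT p q)
      + (21 / 4 : ℝ) * (iA x y) ^ 2 * (iT x y) * (iA p q) ^ 3
      + (15 / 16 : ℝ) * (iA x y) ^ 2 * (iT x y) * (iA p q) ^ 4
      - (9 / 4 : ℝ) * (iA x y) ^ 3 * (iT p q) ^ 2
      + (3 / 4 : ℝ) * (iA x y) ^ 3 * (iA p q) * (iT p q)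
      + (3 / 4 : ℝ) * (iA x y) ^ 3 * (iA p q) * (iT p q) ^ 2
      + (3 / 4 : ℝ) * (iA x y) ^ 3 * (iA p q) ^ 2
      + (21 / 4 : ℝ) * (iA x y) ^ 3 * (iA p q) ^ 2 * (iT p q)
      + (117 / 16 : ℝ) * (iA x y) ^ 3 * (iA p q) ^ 3
      + (9 / 8 : ℝ) * (iA x y) ^ 3 * (iA p q) ^ 4
      + (3 / 4 : ℝ) * (iA x y) ^ 4 * (iA p q) * (iT p q)
      - (3 / 8 : ℝ) * (iA x y) ^ 4 * (iA p q) * (iT p q) ^ 2
      + (3 / 8 : ℝ) * (iA x y) ^ 4 * (iA p q) ^ 2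
      + (15 / 16 : ℝ) * (iA x y) ^ 4 * (iA p q) ^ 2 * (iT p q)
      + (9 / 8 : ℝ) * (iA x y) ^ 4 * (iA p q) ^ 3
      + (99 / 128 : ℝ) * (iA x y) ^ 4 * (iA p q) ^ 4 := by
  have rx : (0 ≤ (x + 1) / 3 ∧ (x + 1) / 3 ≤ 1) := by constructor <;> linarith [hx.1, hx.2]
  have ry : (0 ≤ (y + 1) / 3 ∧ (y + 1) / 3 ≤ 1) := by constructor <;> linarith [hy.1, hy.2]
  have rp : (0 ≤ (p + 1) / 3 ∧ (p + 1) / 3 ≤ 1) := by constructor <;> linarith [hp.1, hp.2]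
  have rq : (0 ≤ (q + 1) / 3 ∧ (q + 1) / 3 ≤ 1) := by constructor <;> linarith [hq.1, hq.2]
  have hfalse := cert_nonneg (fun {S} [Add S] [Mul S] [Sub S] => diff4 false) _ _ _ _ _ okDiff4_false
    (fun {S} [CommRing S] ρ => ev_diff4 ρ false) rfl (fun _ => rfl) _ _ _ _ rx ry rp rq
  have htrue := cert_nonneg (fun {S} [Add S] [Mul S] [Sub S] => diff4 true) _ _ _ _ _ okDiff4_true
    (fun {S} [CommRing S] ρ => ev_diff4 ρ true) rfl (fun _ => rfl) _ _ _ _ rx ry rp rq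
  have e3 : ∀ t : ℝ, (3 : ℤ) * ((t + 1) / 3) - (1 : ℤ) = t := fun t => by push_cast; ring
  simp only [diff4, Bool.false_eq_true, if_false, if_true, e3] at hfalse htrue
  have ex : ∀ a b c : ℝ, s1 (fun n => (n : ℝ)) x y a b c = 3 * xP x y a b c := fun a b c => by
    simp only [s1, xP]; push_cast; ring
  have en : ∀ a b c : ℝ, s2 (fun n => (n : ℝ)) x y a b c = 3 * na x y a b c := fun a b c => by
    simp only [s2, na]; push_cast; ring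
  have ea : ∀ a b : ℝ, a3 a b = 3 * iA a b := fun a b => by simp only [a3, iA]; ring
  have et : ∀ a b : ℝ, t3 a b = 3 * iT a b := fun a b => by simp only [t3, iT]; ring
  have ec : ((0 : ℤ) : ℝ) - p - q = -p - q := by push_cast; ring
  simp only [lhs4, rhs4, ec, ex, en, ea, et] at hfalse htrue
  simp only [six]
  have heq := le_antisymm (sub_nonneg.mp hfalse) (sub_nonneg.mp htrue)
  push_cast at heq
  linear_combination (-(1 / 279936) : ℝ) * heq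

theorem avgNc5 (x y p q : ℝ) (hx : -1 ≤ x ∧ x ≤ 2) (hy : -1 ≤ y ∧ y ≤ 2)
    (hp : -1 ≤ p ∧ p ≤ 2) (hq : -1 ≤ q ∧ q ≤ 2) :
    six (fun a b c => na x y a b c ^ 2 * xP x y a b c ^ 5) p q =
      (0 : ℝ) + (4 : ℝ) * (iT x y) ^ 2 * (iT p q) ^ 2
      + (4 : ℝ) * (iT x y) ^ 2 * (iA p q) * (iT p q) ^ 2
      + (1 / 2 : ℝ) * (iT x y) ^ 2 * (iA p q) ^ 2 * (iT p q)
      - (1 : ℝ) * (iT x y) ^ 2 * (iA p q) ^ 3
      + (1 / 2 : ℝ) * (iT x y) ^ 2 * (iA p q) ^ 3 * (iT p q)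
      - (1 : ℝ) * (iT x y) ^ 2 * (iA p q) ^ 4 + (1 / 2 : ℝ) * (iT x y) ^ 3 * (iT p q) ^ 3
      + (1 : ℝ) * (iT x y) ^ 3 * (iA p q) * (iT p q) ^ 2
      + (1 / 2 : ℝ) * (iT x y) ^ 3 * (iA p q) ^ 2 * (iT p q)
      - (3 / 16 : ℝ) * (iT x y) ^ 3 * (iA p q) ^ 3 * (iT p q)
      - (1 / 4 : ℝ) * (iT x y) ^ 3 * (iA p q) ^ 4
      + (5 / 8 : ℝ) * (iA x y) * (iT x y) * (iA p q) * (iT p q)
      + (5 / 4 : ℝ) * (iA x y) * (iT x y) * (iA p q) ^ 2 * (iT p q)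
      + (5 / 8 : ℝ) * (iA x y) * (iT x y) * (iA p q) ^ 3 * (iT p q)
      + (4 : ℝ) * (iA x y) * (iT x y) ^ 2 * (iT p q) ^ 2
      + (1 : ℝ) * (iA x y) * (iT x y) ^ 2 * (iT p q) ^ 3
      + (11 : ℝ) * (iA x y) * (iT x y) ^ 2 * (iA p q) * (iT p q) ^ 2
      + (13 / 2 : ℝ) * (iA x y) * (iT x y) ^ 2 * (iA p q) ^ 2 * (iT p q)
      - (1 : ℝ) * (iA x y) * (iT x y) ^ 2 * (iA p q) ^ 3
      + (3 / 4 : ℝ) * (iA x y) * (iT x y) ^ 2 * (iA p q) ^ 3 * (iT p q)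
      - (3 / 2 : ℝ) * (iA x y) * (iT x y) ^ 2 * (iA p q) ^ 4
      + (1 / 2 : ℝ) * (iA x y) ^ 2 * (iT x y) * (iT p q) ^ 2
      + (1 / 2 : ℝ) * (iA x y) ^ 2 * (iT x y) * (iT p q) ^ 3
      + (5 / 4 : ℝ) * (iA x y) ^ 2 * (iT x y) * (iA p q) * (iT p q)
      + (13 / 2 : ℝ) * (iA x y) ^ 2 * (iT x y) * (iA p q) * (iT p q) ^ 2
      + (219 / 16 : ℝ) * (iA x y) ^ 2 * (iT x y) * (iA p q) ^ 2 * (iT p q)
      + (9 / 8 : ℝ) * (iA x y) ^ 2 * (iT x y) * (iA p q) ^ 3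
      + (3 : ℝ) * (iA x y) ^ 2 * (iT x y) * (iA p q) ^ 3 * (iT p q)
      + (27 / 8 : ℝ) * (iA x y) ^ 2 * (iT x y) * (iA p q) ^ 4
      - (1 : ℝ) * (iA x y) ^ 3 * (iT p q) ^ 2
      - (1 : ℝ) * (iA x y) ^ 3 * (iA p q) * (iT p q) ^ 2
      + (9 / 8 : ℝ) * (iA x y) ^ 3 * (iA p q) ^ 2 * (iT p q)
      + (11 / 4 : ℝ) * (iA x y) ^ 3 * (iA p q) ^ 3
      + (9 / 8 : ℝ) * (iA x y) ^ 3 * (iA p q) ^ 3 * (iT p q)
      + (11 / 4 : ℝ) * (iA x y) ^ 3 * (iA p q) ^ 4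
      + (1 / 2 : ℝ) * (iA x y) ^ 3 * (iT x y) * (iT p q) ^ 2
      - (3 / 16 : ℝ) * (iA x y) ^ 3 * (iT x y) * (iT p q) ^ 3
      + (5 / 8 : ℝ) * (iA x y) ^ 3 * (iT x y) * (iA p q) * (iT p q)
      + (3 / 4 : ℝ) * (iA x y) ^ 3 * (iT x y) * (iA p q) * (iT p q) ^ 2
      + (3 : ℝ) * (iA x y) ^ 3 * (iT x y) * (iA p q) ^ 2 * (iT p q)
      + (9 / 8 : ℝ) * (iA x y) ^ 3 * (iT x y) * (iA p q) ^ 3
      + (197 / 128 : ℝ) * (iA x y) ^ 3 * (iT x y) * (iA p q) ^ 3 * (iT p q)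
      + (49 / 32 : ℝ) * (iA x y) ^ 3 * (iT x y) * (iA p q) ^ 4
      - (1 : ℝ) * (iA x y) ^ 4 * (iT p q) ^ 2 - (1 / 4 : ℝ) * (iA x y) ^ 4 * (iT p q) ^ 3
      - (3 / 2 : ℝ) * (iA x y) ^ 4 * (iA p q) * (iT p q) ^ 2
      + (27 / 8 : ℝ) * (iA x y) ^ 4 * (iA p q) ^ 2 * (iT p q)
      + (11 / 4 : ℝ) * (iA x y) ^ 4 * (iA p q) ^ 3
      + (49 / 32 : ℝ) * (iA x y) ^ 4 * (iA p q) ^ 3 * (iT p q)
      + (33 / 8 : ℝ) * (iA x y) ^ 4 * (iA p q) ^ 4 := by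
  have rx : (0 ≤ (x + 1) / 3 ∧ (x + 1) / 3 ≤ 1) := by constructor <;> linarith [hx.1, hx.2]
  have ry : (0 ≤ (y + 1) / 3 ∧ (y + 1) / 3 ≤ 1) := by constructor <;> linarith [hy.1, hy.2]
  have rp : (0 ≤ (p + 1) / 3 ∧ (p + 1) / 3 ≤ 1) := by constructor <;> linarith [hp.1, hp.2]
  have rq : (0 ≤ (q + 1) / 3 ∧ (q + 1) / 3 ≤ 1) := by constructor <;> linarith [hq.1, hq.2]
  have hfalse := cert_nonneg (fun {S} [Add S] [Mul S] [Sub S] => diff5 false) _ _ _ _ _ okDiff5_false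
    (fun {S} [CommRing S] ρ => ev_diff5 ρ false) rfl (fun _ => rfl) _ _ _ _ rx ry rp rq
  have htrue := cert_nonneg (fun {S} [Add S] [Mul S] [Sub S] => diff5 true) _ _ _ _ _ okDiff5_true
    (fun {S} [CommRing S] ρ => ev_diff5 ρ true) rfl (fun _ => rfl) _ _ _ _ rx ry rp rq
  have e3 : ∀ t : ℝ, (3 : ℤ) * ((t + 1) / 3) - (1 : ℤ) = t := fun t => by push_cast; ring
  simp only [diff5, Bool.false_eq_true, if_false, if_true, e3] at hfalse htrue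
  have ex : ∀ a b c : ℝ, s1 (fun n => (n : ℝ)) x y a b c = 3 * xP x y a b c := fun a b c => by
    simp only [s1, xP]; push_cast; ring
  have en : ∀ a b c : ℝ, s2 (fun n => (n : ℝ)) x y a b c = 3 * na x y a b c := fun a b c => by
    simp only [s2, na]; push_cast; ring
  have ea : ∀ a b : ℝ, a3 a b = 3 * iA a b := fun a b => by simp only [a3, iA]; ring
  have et : ∀ a b : ℝ, t3 a b = 3 * iT a b := fun a b => by simp only [t3, iT]; ring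
  have ec : ((0 : ℤ) : ℝ) - p - q = -p - q := by push_cast; ring
  simp only [lhs5, rhs5, ec, ex, en, ea, et] at hfalse htrue
  simp only [six]
  have heq := le_antisymm (sub_nonneg.mp hfalse) (sub_nonneg.mp htrue)
  push_cast at heq
  linear_combination (-(1 / 839808) : ℝ) * heq

set_option maxRecDepth 8000 in
set_option maxHeartbeats 1000000 in
theorem avgNc6 (x y p q : ℝ) (hx : -1 ≤ x ∧ x ≤ 2) (hy : -1 ≤ y ∧ y ≤ 2)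
    (hp : -1 ≤ p ∧ p ≤ 2) (hq : -1 ≤ q ∧ q ≤ 2) :
    six (fun a b c => na x y a b c ^ 2 * xP x y a b c ^ 6) p q =
      (0 : ℝ) + (1 / 2 : ℝ) * (iT x y) ^ 2 * (iT p q) ^ 2
      + (1 : ℝ) * (iT x y) ^ 2 * (iA p q) * (iT p q) ^ 2
      + (1 / 2 : ℝ) * (iT x y) ^ 2 * (iA p q) ^ 2 * (iT p q) ^ 2
      - (1 / 8 : ℝ) * (iT x y) ^ 2 * (iA p q) ^ 3 - (1 / 4 : ℝ) * (iT x y) ^ 2 * (iA p q) ^ 4
      - (1 / 8 : ℝ) * (iT x y) ^ 2 * (iA p q) ^ 5 + (4 : ℝ) * (iT x y) ^ 3 * (iT p q) ^ 3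
      + (4 : ℝ) * (iT x y) ^ 3 * (iA p q) * (iT p q) ^ 2
      + (1 / 2 : ℝ) * (iT x y) ^ 3 * (iA p q) ^ 2 * (iT p q) ^ 2
      - (1 : ℝ) * (iT x y) ^ 3 * (iA p q) ^ 3 * (iT p q)
      - (1 : ℝ) * (iT x y) ^ 3 * (iA p q) ^ 4 - (1 / 8 : ℝ) * (iT x y) ^ 3 * (iA p q) ^ 5
      + (1 : ℝ) * (iA x y) * (iT x y) ^ 2 * (iT p q) ^ 2
      + (4 : ℝ) * (iA x y) * (iT x y) ^ 2 * (iT p q) ^ 3
      + (39 / 2 : ℝ) * (iA x y) * (iT x y) ^ 2 * (iA p q) * (iT p q) ^ 2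
      + (3 / 2 : ℝ) * (iA x y) * (iT x y) ^ 2 * (iA p q) ^ 2 * (iT p q)
      + (3 : ℝ) * (iA x y) * (iT x y) ^ 2 * (iA p q) ^ 2 * (iT p q) ^ 2
      - (1 / 4 : ℝ) * (iA x y) * (iT x y) ^ 2 * (iA p q) ^ 3
      + (7 / 2 : ℝ) * (iA x y) * (iT x y) ^ 2 * (iA p q) ^ 3 * (iT p q)
      - (39 / 8 : ℝ) * (iA x y) * (iT x y) ^ 2 * (iA p q) ^ 4
      - (3 / 8 : ℝ) * (iA x y) * (iT x y) ^ 2 * (iA p q) ^ 5
      + (3 / 2 : ℝ) * (iA x y) ^ 2 * (iT x y) * (iA p q) * (iT p q) ^ 2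
      + (21 / 4 : ℝ) * (iA x y) ^ 2 * (iT x y) * (iA p q) ^ 2 * (iT p q)
      + (3 / 2 : ℝ) * (iA x y) ^ 2 * (iT x y) * (iA p q) ^ 2 * (iT p q) ^ 2
      + (21 / 4 : ℝ) * (iA x y) ^ 2 * (iT x y) * (iA p q) ^ 3 * (iT p q)
      + (9 / 16 : ℝ) * (iA x y) ^ 2 * (iT x y) * (iA p q) ^ 4
      + (9 / 16 : ℝ) * (iA x y) ^ 2 * (iT x y) * (iA p q) ^ 5
      + (1 / 2 : ℝ) * (iA x y) ^ 2 * (iT x y) ^ 2 * (iT p q) ^ 2
      + (1 / 2 : ℝ) * (iA x y) ^ 2 * (iT x y) ^ 2 * (iT p q) ^ 3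
      + (3 : ℝ) * (iA x y) ^ 2 * (iT x y) ^ 2 * (iA p q) * (iT p q) ^ 2
      + (3 / 2 : ℝ) * (iA x y) ^ 2 * (iT x y) ^ 2 * (iA p q) ^ 2 * (iT p q)
      + (81 / 32 : ℝ) * (iA x y) ^ 2 * (iT x y) ^ 2 * (iA p q) ^ 2 * (iT p q) ^ 2
      - (1 / 8 : ℝ) * (iA x y) ^ 2 * (iT x y) ^ 2 * (iA p q) ^ 3
      + (37 / 16 : ℝ) * (iA x y) ^ 2 * (iT x y) ^ 2 * (iA p q) ^ 3 * (iT p q)
      + (3 / 16 : ℝ) * (iA x y) ^ 2 * (iT x y) ^ 2 * (iA p q) ^ 4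
      - (81 / 128 : ℝ) * (iA x y) ^ 2 * (iT x y) ^ 2 * (iA p q) ^ 5
      - (1 / 8 : ℝ) * (iA x y) ^ 3 * (iT p q) ^ 2
      - (1 / 4 : ℝ) * (iA x y) ^ 3 * (iA p q) * (iT p q) ^ 2
      - (1 / 8 : ℝ) * (iA x y) ^ 3 * (iA p q) ^ 2 * (iT p q) ^ 2
      + (11 / 32 : ℝ) * (iA x y) ^ 3 * (iA p q) ^ 3
      + (11 / 16 : ℝ) * (iA x y) ^ 3 * (iA p q) ^ 4
      + (11 / 32 : ℝ) * (iA x y) ^ 3 * (iA p q) ^ 5
      - (1 : ℝ) * (iA x y) ^ 3 * (iT x y) * (iT p q) ^ 3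
      + (7 / 2 : ℝ) * (iA x y) ^ 3 * (iT x y) * (iA p q) * (iT p q) ^ 2
      + (21 / 4 : ℝ) * (iA x y) ^ 3 * (iT x y) * (iA p q) ^ 2 * (iT p q)
      + (37 / 16 : ℝ) * (iA x y) ^ 3 * (iT x y) * (iA p q) ^ 2 * (iT p q) ^ 2
      + (85 / 8 : ℝ) * (iA x y) ^ 3 * (iT x y) * (iA p q) ^ 3 * (iT p q)
      + (71 / 16 : ℝ) * (iA x y) ^ 3 * (iT x y) * (iA p q) ^ 4
      + (49 / 64 : ℝ) * (iA x y) ^ 3 * (iT x y) * (iA p q) ^ 5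
      - (1 / 4 : ℝ) * (iA x y) ^ 4 * (iT p q) ^ 2 - (1 : ℝ) * (iA x y) ^ 4 * (iT p q) ^ 3
      - (39 / 8 : ℝ) * (iA x y) ^ 4 * (iA p q) * (iT p q) ^ 2
      + (9 / 16 : ℝ) * (iA x y) ^ 4 * (iA p q) ^ 2 * (iT p q)
      + (3 / 16 : ℝ) * (iA x y) ^ 4 * (iA p q) ^ 2 * (iT p q) ^ 2
      + (11 / 16 : ℝ) * (iA x y) ^ 4 * (iA p q) ^ 3
      + (71 / 16 : ℝ) * (iA x y) ^ 4 * (iA p q) ^ 3 * (iT p q)
      + (453 / 64 : ℝ) * (iA x y) ^ 4 * (iA p q) ^ 4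
      + (33 / 32 : ℝ) * (iA x y) ^ 4 * (iA p q) ^ 5 - (1 / 8 : ℝ) * (iA x y) ^ 5 * (iT p q) ^ 2
      - (1 / 8 : ℝ) * (iA x y) ^ 5 * (iT p q) ^ 3
      - (3 / 8 : ℝ) * (iA x y) ^ 5 * (iA p q) * (iT p q) ^ 2
      + (9 / 16 : ℝ) * (iA x y) ^ 5 * (iA p q) ^ 2 * (iT p q)
      - (81 / 128 : ℝ) * (iA x y) ^ 5 * (iA p q) ^ 2 * (iT p q) ^ 2
      + (11 / 32 : ℝ) * (iA x y) ^ 5 * (iA p q) ^ 3
      + (49 / 64 : ℝ) * (iA x y) ^ 5 * (iA p q) ^ 3 * (iT p q)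
      + (33 / 32 : ℝ) * (iA x y) ^ 5 * (iA p q) ^ 4
      + (387 / 512 : ℝ) * (iA x y) ^ 5 * (iA p q) ^ 5 := by
  have rx : (0 ≤ (x + 1) / 3 ∧ (x + 1) / 3 ≤ 1) := by constructor <;> linarith [hx.1, hx.2]
  have ry : (0 ≤ (y + 1) / 3 ∧ (y + 1) / 3 ≤ 1) := by constructor <;> linarith [hy.1, hy.2]
  have rp : (0 ≤ (p + 1) / 3 ∧ (p + 1) / 3 ≤ 1) := by constructor <;> linarith [hp.1, hp.2]
  have rq : (0 ≤ (q + 1) / 3 ∧ (q + 1) / 3 ≤ 1) := by constructor <;> linarith [hq.1, hq.2]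
  have hfalse := cert_nonneg (fun {S} [Add S] [Mul S] [Sub S] => diff6 false) _ _ _ _ _ okDiff6_false
    (fun {S} [CommRing S] ρ => ev_diff6 ρ false) rfl (fun _ => rfl) _ _ _ _ rx ry rp rq
  have htrue := cert_nonneg (fun {S} [Add S] [Mul S] [Sub S] => diff6 true) _ _ _ _ _ okDiff6_true
    (fun {S} [CommRing S] ρ => ev_diff6 ρ true) rfl (fun _ => rfl) _ _ _ _ rx ry rp rq
  have e3 : ∀ t : ℝ, (3 : ℤ) * ((t + 1) / 3) - (1 : ℤ) = t := fun t => by push_cast; ring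
  simp only [diff6, Bool.false_eq_true, if_false, if_true, e3] at hfalse htrue
  have ex : ∀ a b c : ℝ, s1 (fun n => (n : ℝ)) x y a b c = 3 * xP x y a b c := fun a b c => by
    simp only [s1, xP]; push_cast; ring
  have en : ∀ a b c : ℝ, s2 (fun n => (n : ℝ)) x y a b c = 3 * na x y a b c := fun a b c => by
    simp only [s2, na]; push_cast; ring
  have ea : ∀ a b : ℝ, a3 a b = 3 * iA a b := fun a b => by simp only [a3, iA]; ring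
  have et : ∀ a b : ℝ, t3 a b = 3 * iT a b := fun a b => by simp only [t3, iT]; ring
  have ec : ((0 : ℤ) : ℝ) - p - q = -p - q := by push_cast; ring
  simp only [lhs6, rhs6, ec, ex, en, ea, et] at hfalse htrue
  simp only [six]
  have heq := le_antisymm (sub_nonneg.mp hfalse) (sub_nonneg.mp htrue)
  push_cast at heq
  linear_combination (-(1 / 10077696) : ℝ) * heq

end Vale.Agent.P154.AF
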