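import Vale.Agent.P154.CertApply
import Vale.Agent.P154.AF.DataA11
import Vale.Agent.P154.AF.DataA12
import Vale.Agent.P154.AF.DataA21
import Vale.Agent.P154.AF.DataA22
import Vale.Agent.P154.AF.DataB11
import Vale.Agent.P154.AF.DataB12
import Vale.Agent.P154.AF.DataB21
import Vale.Agent.P154.AF.DataB22
import Vale.Agent.P154.Domain

/-!
The antiferromagnetic certificates are nonnegative on the whole range of the invariants.
-/

namespace Vale.Agent.P154.AF

open NPoly

variable {S : Type} [CommRing S] (ρ : ℕ → S)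

lemma ev_expr11 (two : Bool) :
    ev ρ (expr11 two W.k vX vY vZ vV).v =
      expr11 two (fun n => (n : S)) (ρ 0) (ρ 1) (ρ 2) (ρ 3) := by
  cases two <;>
    simp only [expr11, Bool.false_eq_true, if_false, if_true, certA, certB, aR1, tR1, aR2, tR2,
      ev_Wadd, ev_Wmul, ev_Wsub, ev_Wk, ev_vX, ev_vY, ev_vZ, ev_vV]

lemma ev_expr12 (two : Bool) :
    ev ρ (expr12 two W.k vX vY vZ vV).v =
      expr12 two (fun n => (n : S)) (ρ 0) (ρ 1) (ρ 2) (ρ 3) := by
  cases two <;>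
    simp only [expr12, Bool.false_eq_true, if_false, if_true, certA, certB, aR1, tR1, aR2, tR2,
      ev_Wadd, ev_Wmul, ev_Wsub, ev_Wk, ev_vX, ev_vY, ev_vZ, ev_vV]

lemma ev_expr21 (two : Bool) :
    ev ρ (expr21 two W.k vX vY vZ vV).v =
      expr21 two (fun n => (n : S)) (ρ 0) (ρ 1) (ρ 2) (ρ 3) := by
  cases two <;>
    simp only [expr21, Bool.false_eq_true, if_false, if_true, certA, certB, aR1, tR1, aR2, tR2,
      ev_Wadd, ev_Wmul, ev_Wsub, ev_Wk, ev_vX, ev_vY, ev_vZ, ev_vV]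

lemma ev_expr22 (two : Bool) :
    ev ρ (expr22 two W.k vX vY vZ vV).v =
      expr22 two (fun n => (n : S)) (ρ 0) (ρ 1) (ρ 2) (ρ 3) := by
  cases two <;>
    simp only [expr22, Bool.false_eq_true, if_false, if_true, certA, certB, aR1, tR1, aR2, tR2,
      ev_Wadd, ev_Wmul, ev_Wsub, ev_Wk, ev_vX, ev_vY, ev_vZ, ev_vV]

variable (x y z v : ℝ) (hx : 0 ≤ x ∧ x ≤ 1) (hy : 0 ≤ y ∧ y ≤ 1) (hz : 0 ≤ z ∧ z ≤ 1)
  (hv : 0 ≤ v ∧ v ≤ 1)

include hx hy hz hv

theorem certA11_nonneg : 0 ≤ expr11 false (fun n => (n : ℝ)) x y z v :=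
  cert_nonneg (fun {S} [Add S] [Mul S] [Sub S] => expr11 false) _ _ _ _ _ okA11
    (fun {S} [CommRing S] ρ => ev_expr11 ρ false) rfl (fun _ => rfl) x y z v hx hy hz hv

theorem certA12_nonneg : 0 ≤ expr12 false (fun n => (n : ℝ)) x y z v :=
  cert_nonneg (fun {S} [Add S] [Mul S] [Sub S] => expr12 false) _ _ _ _ _ okA12
    (fun {S} [CommRing S] ρ => ev_expr12 ρ false) rfl (fun _ => rfl) x y z v hx hy hz hv

theorem certA21_nonneg : 0 ≤ expr21 false (fun n => (n : ℝ)) x y z v :=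
  cert_nonneg (fun {S} [Add S] [Mul S] [Sub S] => expr21 false) _ _ _ _ _ okA21
    (fun {S} [CommRing S] ρ => ev_expr21 ρ false) rfl (fun _ => rfl) x y z v hx hy hz hv

theorem certA22_nonneg : 0 ≤ expr22 false (fun n => (n : ℝ)) x y z v :=
  cert_nonneg (fun {S} [Add S] [Mul S] [Sub S] => expr22 false) _ _ _ _ _ okA22
    (fun {S} [CommRing S] ρ => ev_expr22 ρ false) rfl (fun _ => rfl) x y z v hx hy hz hv

theorem certB11_nonneg : 0 ≤ expr11 true (fun n => (n : ℝ)) x y z v :=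
  cert_nonneg (fun {S} [Add S] [Mul S] [Sub S] => expr11 true) _ _ _ _ _ okB11
    (fun {S} [CommRing S] ρ => ev_expr11 ρ true) rfl (fun _ => rfl) x y z v hx hy hz hv

theorem certB12_nonneg : 0 ≤ expr12 true (fun n => (n : ℝ)) x y z v :=
  cert_nonneg (fun {S} [Add S] [Mul S] [Sub S] => expr12 true) _ _ _ _ _ okB12
    (fun {S} [CommRing S] ρ => ev_expr12 ρ true) rfl (fun _ => rfl) x y z v hx hy hz hv

theorem certB21_nonneg : 0 ≤ expr21 true (fun n => (n : ℝ)) x y z v :=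
  cert_nonneg (fun {S} [Add S] [Mul S] [Sub S] => expr21 true) _ _ _ _ _ okB21
    (fun {S} [CommRing S] ρ => ev_expr21 ρ true) rfl (fun _ => rfl) x y z v hx hy hz hv

theorem certB22_nonneg : 0 ≤ expr22 true (fun n => (n : ℝ)) x y z v :=
  cert_nonneg (fun {S} [Add S] [Mul S] [Sub S] => expr22 true) _ _ _ _ _ okB22
    (fun {S} [CommRing S] ρ => ev_expr22 ρ true) rfl (fun _ => rfl) x y z v hx hy hz hv

omit hx hy hz hv

theorem certA_nonneg {a t b s : ℝ} (h : InDom a t) (h' : InDom b s) :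
    0 ≤ certA (fun n => (n : ℝ)) a t b s := by
  obtain ⟨x, y, hx, hy, hxy⟩ := dom_param h
  obtain ⟨z, v, hz, hv, hzv⟩ := dom_param h'
  rcases hxy with ⟨rfl, rfl⟩ | ⟨rfl, rfl⟩ <;> rcases hzv with ⟨rfl, rfl⟩ | ⟨rfl, rfl⟩
  · simpa only [expr11, Bool.false_eq_true, if_false, if_true] using certA11_nonneg x y z v hx hy hz hv
  · simpa only [expr12, Bool.false_eq_true, if_false, if_true] using certA12_nonneg x y z v hx hy hz hv
  · simpa only [expr21, Bool.false_eq_true, if_false, if_true] using certA21_nonneg x y z v hx hy hz hv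
  · simpa only [expr22, Bool.false_eq_true, if_false, if_true] using certA22_nonneg x y z v hx hy hz hv

theorem certB_nonneg {a t b s : ℝ} (h : InDom a t) (h' : InDom b s) :
    0 ≤ certB (fun n => (n : ℝ)) a t b s := by
  obtain ⟨x, y, hx, hy, hxy⟩ := dom_param h
  obtain ⟨z, v, hz, hv, hzv⟩ := dom_param h'
  rcases hxy with ⟨rfl, rfl⟩ | ⟨rfl, rfl⟩ <;> rcases hzv with ⟨rfl, rfl⟩ | ⟨rfl, rfl⟩
  · simpa only [expr11, Bool.false_eq_true, if_false, if_true] using certB11_nonneg x y z v hx hy hz hv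
  · simpa only [expr12, Bool.false_eq_true, if_false, if_true] using certB12_nonneg x y z v hx hy hz hv
  · simpa only [expr21, Bool.false_eq_true, if_false, if_true] using certB21_nonneg x y z v hx hy hz hv
  · simpa only [expr22, Bool.false_eq_true, if_false, if_true] using certB22_nonneg x y z v hx hy hz hv

end Vale.Agent.P154.AF
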