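import Vale.Agent.P154.Cert

/-!
Integer forms of the higher permutation averages, on the unit cube after an affine change of variables.
-/

namespace Vale.Agent.P154.AF

section defs

variable {S : Type} [Add S] [Mul S] [Sub S] (k : ℤ → S)

/-- Three times the pairing. -/
def s1 (x y a b c : S) : S := x * a + y * b + (k 0 - x - y) * c

/-- Three times the second moment of the product. -/
def s2 (x y a b c : S) : S :=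
  ((k 1 + x) * (k 1 + a)) * ((k 1 + x) * (k 1 + a)) + ((k 1 + y) * (k 1 + b)) * ((k 1 + y) * (k 1 + b))
    + ((k 1 + (k 0 - x - y)) * (k 1 + c)) * ((k 1 + (k 0 - x - y)) * (k 1 + c))

/-- Three times `iA`. -/
def a3 (x y : S) : S := x * x + y * y + (x + y) * (x + y)

/-- Three times `iT`. -/
def t3 (x y : S) : S := x * x * x + y * y * y - (x + y) * (x + y) * (x + y)

/-- Left side for exponent 3. -/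
def lhs3 (X Y P Q : S) : S :=
  k 16 * (s2 k X Y P Q (k 0 - P - Q) * s2 k X Y P Q (k 0 - P - Q) * s1 k X Y P Q (k 0 - P - Q) * s1 k X Y P Q (k 0 - P - Q) * s1 k X Y P Q (k 0 - P - Q)
    + s2 k X Y Q (k 0 - P - Q) P * s2 k X Y Q (k 0 - P - Q) P * s1 k X Y Q (k 0 - P - Q) P * s1 k X Y Q (k 0 - P - Q) P * s1 k X Y Q (k 0 - P - Q) P
    + s2 k X Y (k 0 - P - Q) P Q * s2 k X Y (k 0 - P - Q) P Q * s1 k X Y (k 0 - P - Q) P Q * s1 k X Y (k 0 - P - Q) P Q * s1 k X Y (k 0 - P - Q) P Q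
    + s2 k X Y Q P (k 0 - P - Q) * s2 k X Y Q P (k 0 - P - Q) * s1 k X Y Q P (k 0 - P - Q) * s1 k X Y Q P (k 0 - P - Q) * s1 k X Y Q P (k 0 - P - Q)
    + s2 k X Y P (k 0 - P - Q) Q * s2 k X Y P (k 0 - P - Q) Q * s1 k X Y P (k 0 - P - Q) Q * s1 k X Y P (k 0 - P - Q) Q * s1 k X Y P (k 0 - P - Q) Q
    + s2 k X Y (k 0 - P - Q) Q P * s2 k X Y (k 0 - P - Q) Q P * s1 k X Y (k 0 - P - Q) Q P * s1 k X Y (k 0 - P - Q) Q P * s1 k X Y (k 0 - P - Q) Q P)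

/-- Right side for exponent 3. -/
def rhs3 (X Y P Q : S) : S :=
  k 0
    + k 1296 * (t3 X Y) * (t3 P Q)
    + k 864 * (t3 X Y) * (a3 P Q) * (t3 P Q)
    + k 144 * (t3 X Y) * (a3 P Q) * (a3 P Q) * (t3 P Q)
    + k 1152 * (t3 X Y) * (t3 X Y) * (t3 P Q) * (t3 P Q)
    + k 1152 * (t3 X Y) * (t3 X Y) * (a3 P Q) * (t3 P Q)
    + k 48 * (t3 X Y) * (t3 X Y) * (a3 P Q) * (a3 P Q) * (t3 P Q)
    + k 864 * (a3 X Y) * (t3 X Y) * (t3 P Q)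
    + k 1152 * (a3 X Y) * (t3 X Y) * (t3 P Q) * (t3 P Q)
    + k 3672 * (a3 X Y) * (t3 X Y) * (a3 P Q) * (t3 P Q)
    + k 432 * (a3 X Y) * (t3 X Y) * (a3 P Q) * (a3 P Q)
    + k 288 * (a3 X Y) * (t3 X Y) * (a3 P Q) * (a3 P Q) * (t3 P Q)
    + k 432 * (a3 X Y) * (t3 X Y) * (a3 P Q) * (a3 P Q) * (a3 P Q)
    + k 432 * (a3 X Y) * (a3 X Y) * (a3 P Q) * (t3 P Q)
    + k 864 * (a3 X Y) * (a3 X Y) * (a3 P Q) * (a3 P Q)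
    + k 144 * (a3 X Y) * (a3 X Y) * (a3 P Q) * (a3 P Q) * (t3 P Q)
    + k 288 * (a3 X Y) * (a3 X Y) * (a3 P Q) * (a3 P Q) * (a3 P Q)
    + k 144 * (a3 X Y) * (a3 X Y) * (t3 X Y) * (t3 P Q)
    + k 48 * (a3 X Y) * (a3 X Y) * (t3 X Y) * (t3 P Q) * (t3 P Q)
    + k 288 * (a3 X Y) * (a3 X Y) * (t3 X Y) * (a3 P Q) * (t3 P Q)
    + k 144 * (a3 X Y) * (a3 X Y) * (t3 X Y) * (a3 P Q) * (a3 P Q)
    + k 45 * (a3 X Y) * (a3 X Y) * (t3 X Y) * (a3 P Q) * (a3 P Q) * (t3 P Q)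
    + k 60 * (a3 X Y) * (a3 X Y) * (t3 X Y) * (a3 P Q) * (a3 P Q) * (a3 P Q)
    + k 432 * (a3 X Y) * (a3 X Y) * (a3 X Y) * (a3 P Q) * (t3 P Q)
    + k 288 * (a3 X Y) * (a3 X Y) * (a3 X Y) * (a3 P Q) * (a3 P Q)
    + k 60 * (a3 X Y) * (a3 X Y) * (a3 X Y) * (a3 P Q) * (a3 P Q) * (t3 P Q)
    + k 144 * (a3 X Y) * (a3 X Y) * (a3 X Y) * (a3 P Q) * (a3 P Q) * (a3 P Q)

/-- Difference for exponent 3; `two` flips its sign. -/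
def diff3 (two : Bool) (k : ℤ → S) (x y z v : S) : S :=
  if two then
    rhs3 k (k 3 * x - k 1) (k 3 * y - k 1) (k 3 * z - k 1) (k 3 * v - k 1)
      - lhs3 k (k 3 * x - k 1) (k 3 * y - k 1) (k 3 * z - k 1) (k 3 * v - k 1)
  else
    lhs3 k (k 3 * x - k 1) (k 3 * y - k 1) (k 3 * z - k 1) (k 3 * v - k 1)
      - rhs3 k (k 3 * x - k 1) (k 3 * y - k 1) (k 3 * z - k 1) (k 3 * v - k 1)

/-- Left side for exponent 4. -/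
def lhs4 (X Y P Q : S) : S :=
  k 64 * (s2 k X Y P Q (k 0 - P - Q) * s2 k X Y P Q (k 0 - P - Q) * s1 k X Y P Q (k 0 - P - Q) * s1 k X Y P Q (k 0 - P - Q) * s1 k X Y P Q (k 0 - P - Q) * s1 k X Y P Q (k 0 - P - Q)
    + s2 k X Y Q (k 0 - P - Q) P * s2 k X Y Q (k 0 - P - Q) P * s1 k X Y Q (k 0 - P - Q) P * s1 k X Y Q (k 0 - P - Q) P * s1 k X Y Q (k 0 - P - Q) P * s1 k X Y Q (k 0 - P - Q) P
    + s2 k X Y (k 0 - P - Q) P Q * s2 k X Y (k 0 - P - Q) P Q * s1 k X Y (k 0 - P - Q) P Q * s1 k X Y (k 0 - P - Q) P Q * s1 k X Y (k 0 - P - Q) P Q * s1 k X Y (k 0 - P - Q) P Q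
    + s2 k X Y Q P (k 0 - P - Q) * s2 k X Y Q P (k 0 - P - Q) * s1 k X Y Q P (k 0 - P - Q) * s1 k X Y Q P (k 0 - P - Q) * s1 k X Y Q P (k 0 - P - Q) * s1 k X Y Q P (k 0 - P - Q)
    + s2 k X Y P (k 0 - P - Q) Q * s2 k X Y P (k 0 - P - Q) Q * s1 k X Y P (k 0 - P - Q) Q * s1 k X Y P (k 0 - P - Q) Q * s1 k X Y P (k 0 - P - Q) Q * s1 k X Y P (k 0 - P - Q) Q
    + s2 k X Y (k 0 - P - Q) Q P * s2 k X Y (k 0 - P - Q) Q P * s1 k X Y (k 0 - P - Q) Q P * s1 k X Y (k 0 - P - Q) Q P * s1 k X Y (k 0 - P - Q) Q P * s1 k X Y (k 0 - P - Q) Q P)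

/-- Right side for exponent 4. -/
def rhs4 (X Y P Q : S) : S :=
  k 0
    + k 31104 * (t3 X Y) * (t3 X Y) * (t3 P Q) * (t3 P Q)
    + k 3456 * (t3 X Y) * (t3 X Y) * (a3 P Q) * (t3 P Q)
    + k 1152 * (t3 X Y) * (t3 X Y) * (a3 P Q) * (t3 P Q) * (t3 P Q)
    + k 3456 * (t3 X Y) * (t3 X Y) * (a3 P Q) * (a3 P Q) * (t3 P Q)
    + k (-2592) * (t3 X Y) * (t3 X Y) * (a3 P Q) * (a3 P Q) * (a3 P Q)
    + k 3456 * (a3 X Y) * (t3 X Y) * (t3 P Q) * (t3 P Q)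
    + k 17280 * (a3 X Y) * (t3 X Y) * (a3 P Q) * (t3 P Q)
    + k 1152 * (a3 X Y) * (t3 X Y) * (a3 P Q) * (t3 P Q) * (t3 P Q)
    + k 5760 * (a3 X Y) * (t3 X Y) * (a3 P Q) * (a3 P Q) * (t3 P Q)
    + k 864 * (a3 X Y) * (t3 X Y) * (a3 P Q) * (a3 P Q) * (a3 P Q)
    + k 288 * (a3 X Y) * (t3 X Y) * (a3 P Q) * (a3 P Q) * (a3 P Q) * (a3 P Q)
    + k 1152 * (a3 X Y) * (t3 X Y) * (t3 X Y) * (t3 P Q) * (t3 P Q)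
    + k 1152 * (a3 X Y) * (t3 X Y) * (t3 X Y) * (a3 P Q) * (t3 P Q)
    + k 576 * (a3 X Y) * (t3 X Y) * (t3 X Y) * (a3 P Q) * (t3 P Q) * (t3 P Q)
    + k 768 * (a3 X Y) * (t3 X Y) * (t3 X Y) * (a3 P Q) * (a3 P Q) * (t3 P Q)
    + k 288 * (a3 X Y) * (t3 X Y) * (t3 X Y) * (a3 P Q) * (a3 P Q) * (a3 P Q)
    + k (-48) * (a3 X Y) * (t3 X Y) * (t3 X Y) * (a3 P Q) * (a3 P Q) * (a3 P Q) * (a3 P Q)
    + k 1296 * (a3 X Y) * (a3 X Y) * (a3 P Q) * (a3 P Q)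
    + k 864 * (a3 X Y) * (a3 X Y) * (a3 P Q) * (a3 P Q) * (a3 P Q)
    + k 144 * (a3 X Y) * (a3 X Y) * (a3 P Q) * (a3 P Q) * (a3 P Q) * (a3 P Q)
    + k 3456 * (a3 X Y) * (a3 X Y) * (t3 X Y) * (t3 P Q) * (t3 P Q)
    + k 5760 * (a3 X Y) * (a3 X Y) * (t3 X Y) * (a3 P Q) * (t3 P Q)
    + k 768 * (a3 X Y) * (a3 X Y) * (t3 X Y) * (a3 P Q) * (t3 P Q) * (t3 P Q)
    + k 4032 * (a3 X Y) * (a3 X Y) * (t3 X Y) * (a3 P Q) * (a3 P Q) * (t3 P Q)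
    + k 2016 * (a3 X Y) * (a3 X Y) * (t3 X Y) * (a3 P Q) * (a3 P Q) * (a3 P Q)
    + k 120 * (a3 X Y) * (a3 X Y) * (t3 X Y) * (a3 P Q) * (a3 P Q) * (a3 P Q) * (a3 P Q)
    + k (-2592) * (a3 X Y) * (a3 X Y) * (a3 X Y) * (t3 P Q) * (t3 P Q)
    + k 864 * (a3 X Y) * (a3 X Y) * (a3 X Y) * (a3 P Q) * (t3 P Q)
    + k 288 * (a3 X Y) * (a3 X Y) * (a3 X Y) * (a3 P Q) * (t3 P Q) * (t3 P Q)
    + k 864 * (a3 X Y) * (a3 X Y) * (a3 X Y) * (a3 P Q) * (a3 P Q)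
    + k 2016 * (a3 X Y) * (a3 X Y) * (a3 X Y) * (a3 P Q) * (a3 P Q) * (t3 P Q)
    + k 2808 * (a3 X Y) * (a3 X Y) * (a3 X Y) * (a3 P Q) * (a3 P Q) * (a3 P Q)
    + k 144 * (a3 X Y) * (a3 X Y) * (a3 X Y) * (a3 P Q) * (a3 P Q) * (a3 P Q) * (a3 P Q)
    + k 288 * (a3 X Y) * (a3 X Y) * (a3 X Y) * (a3 X Y) * (a3 P Q) * (t3 P Q)
    + k (-48) * (a3 X Y) * (a3 X Y) * (a3 X Y) * (a3 X Y) * (a3 P Q) * (t3 P Q) * (t3 P Q)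
    + k 144 * (a3 X Y) * (a3 X Y) * (a3 X Y) * (a3 X Y) * (a3 P Q) * (a3 P Q)
    + k 120 * (a3 X Y) * (a3 X Y) * (a3 X Y) * (a3 X Y) * (a3 P Q) * (a3 P Q) * (t3 P Q)
    + k 144 * (a3 X Y) * (a3 X Y) * (a3 X Y) * (a3 X Y) * (a3 P Q) * (a3 P Q) * (a3 P Q)
    + k 33 * (a3 X Y) * (a3 X Y) * (a3 X Y) * (a3 X Y) * (a3 P Q) * (a3 P Q) * (a3 P Q) * (a3 P Q)

/-- Difference for exponent 4; `two` flips its sign. -/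
def diff4 (two : Bool) (k : ℤ → S) (x y z v : S) : S :=
  if two then
    rhs4 k (k 3 * x - k 1) (k 3 * y - k 1) (k 3 * z - k 1) (k 3 * v - k 1)
      - lhs4 k (k 3 * x - k 1) (k 3 * y - k 1) (k 3 * z - k 1) (k 3 * v - k 1)
  else
    lhs4 k (k 3 * x - k 1) (k 3 * y - k 1) (k 3 * z - k 1) (k 3 * v - k 1)
      - rhs4 k (k 3 * x - k 1) (k 3 * y - k 1) (k 3 * z - k 1) (k 3 * v - k 1)

/-- Left side for exponent 5. -/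
def lhs5 (X Y P Q : S) : S :=
  k 64 * (s2 k X Y P Q (k 0 - P - Q) * s2 k X Y P Q (k 0 - P - Q) * s1 k X Y P Q (k 0 - P - Q) * s1 k X Y P Q (k 0 - P - Q) * s1 k X Y P Q (k 0 - P - Q) * s1 k X Y P Q (k 0 - P - Q) * s1 k X Y P Q (k 0 - P - Q)
    + s2 k X Y Q (k 0 - P - Q) P * s2 k X Y Q (k 0 - P - Q) P * s1 k X Y Q (k 0 - P - Q) P * s1 k X Y Q (k 0 - P - Q) P * s1 k X Y Q (k 0 - P - Q) P * s1 k X Y Q (k 0 - P - Q) P * s1 k X Y Q (k 0 - P - Q) P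
    + s2 k X Y (k 0 - P - Q) P Q * s2 k X Y (k 0 - P - Q) P Q * s1 k X Y (k 0 - P - Q) P Q * s1 k X Y (k 0 - P - Q) P Q * s1 k X Y (k 0 - P - Q) P Q * s1 k X Y (k 0 - P - Q) P Q * s1 k X Y (k 0 - P - Q) P Q
    + s2 k X Y Q P (k 0 - P - Q) * s2 k X Y Q P (k 0 - P - Q) * s1 k X Y Q P (k 0 - P - Q) * s1 k X Y Q P (k 0 - P - Q) * s1 k X Y Q P (k 0 - P - Q) * s1 k X Y Q P (k 0 - P - Q) * s1 k X Y Q P (k 0 - P - Q)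
    + s2 k X Y P (k 0 - P - Q) Q * s2 k X Y P (k 0 - P - Q) Q * s1 k X Y P (k 0 - P - Q) Q * s1 k X Y P (k 0 - P - Q) Q * s1 k X Y P (k 0 - P - Q) Q * s1 k X Y P (k 0 - P - Q) Q * s1 k X Y P (k 0 - P - Q) Q
    + s2 k X Y (k 0 - P - Q) Q P * s2 k X Y (k 0 - P - Q) Q P * s1 k X Y (k 0 - P - Q) Q P * s1 k X Y (k 0 - P - Q) Q P * s1 k X Y (k 0 - P - Q) Q P * s1 k X Y (k 0 - P - Q) Q P * s1 k X Y (k 0 - P - Q) Q P)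

/-- Right side for exponent 5. -/
def rhs5 (X Y P Q : S) : S :=
  k 0
    + k 41472 * (t3 X Y) * (t3 X Y) * (t3 P Q) * (t3 P Q)
    + k 13824 * (t3 X Y) * (t3 X Y) * (a3 P Q) * (t3 P Q) * (t3 P Q)
    + k 1728 * (t3 X Y) * (t3 X Y) * (a3 P Q) * (a3 P Q) * (t3 P Q)
    + k (-3456) * (t3 X Y) * (t3 X Y) * (a3 P Q) * (a3 P Q) * (a3 P Q)
    + k 576 * (t3 X Y) * (t3 X Y) * (a3 P Q) * (a3 P Q) * (a3 P Q) * (t3 P Q)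
    + k (-1152) * (t3 X Y) * (t3 X Y) * (a3 P Q) * (a3 P Q) * (a3 P Q) * (a3 P Q)
    + k 576 * (t3 X Y) * (t3 X Y) * (t3 X Y) * (t3 P Q) * (t3 P Q) * (t3 P Q)
    + k 1152 * (t3 X Y) * (t3 X Y) * (t3 X Y) * (a3 P Q) * (t3 P Q) * (t3 P Q)
    + k 576 * (t3 X Y) * (t3 X Y) * (t3 X Y) * (a3 P Q) * (a3 P Q) * (t3 P Q)
    + k (-72) * (t3 X Y) * (t3 X Y) * (t3 X Y) * (a3 P Q) * (a3 P Q) * (a3 P Q) * (t3 P Q)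
    + k (-96) * (t3 X Y) * (t3 X Y) * (t3 X Y) * (a3 P Q) * (a3 P Q) * (a3 P Q) * (a3 P Q)
    + k 6480 * (a3 X Y) * (t3 X Y) * (a3 P Q) * (t3 P Q)
    + k 4320 * (a3 X Y) * (t3 X Y) * (a3 P Q) * (a3 P Q) * (t3 P Q)
    + k 720 * (a3 X Y) * (t3 X Y) * (a3 P Q) * (a3 P Q) * (a3 P Q) * (t3 P Q)
    + k 13824 * (a3 X Y) * (t3 X Y) * (t3 X Y) * (t3 P Q) * (t3 P Q)
    + k 1152 * (a3 X Y) * (t3 X Y) * (t3 X Y) * (t3 P Q) * (t3 P Q) * (t3 P Q)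
    + k 12672 * (a3 X Y) * (t3 X Y) * (t3 X Y) * (a3 P Q) * (t3 P Q) * (t3 P Q)
    + k 7488 * (a3 X Y) * (t3 X Y) * (t3 X Y) * (a3 P Q) * (a3 P Q) * (t3 P Q)
    + k (-1152) * (a3 X Y) * (t3 X Y) * (t3 X Y) * (a3 P Q) * (a3 P Q) * (a3 P Q)
    + k 288 * (a3 X Y) * (t3 X Y) * (t3 X Y) * (a3 P Q) * (a3 P Q) * (a3 P Q) * (t3 P Q)
    + k (-576) * (a3 X Y) * (t3 X Y) * (t3 X Y) * (a3 P Q) * (a3 P Q) * (a3 P Q) * (a3 P Q)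
    + k 1728 * (a3 X Y) * (a3 X Y) * (t3 X Y) * (t3 P Q) * (t3 P Q)
    + k 576 * (a3 X Y) * (a3 X Y) * (t3 X Y) * (t3 P Q) * (t3 P Q) * (t3 P Q)
    + k 4320 * (a3 X Y) * (a3 X Y) * (t3 X Y) * (a3 P Q) * (t3 P Q)
    + k 7488 * (a3 X Y) * (a3 X Y) * (t3 X Y) * (a3 P Q) * (t3 P Q) * (t3 P Q)
    + k 15768 * (a3 X Y) * (a3 X Y) * (t3 X Y) * (a3 P Q) * (a3 P Q) * (t3 P Q)
    + k 1296 * (a3 X Y) * (a3 X Y) * (t3 X Y) * (a3 P Q) * (a3 P Q) * (a3 P Q)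
    + k 1152 * (a3 X Y) * (a3 X Y) * (t3 X Y) * (a3 P Q) * (a3 P Q) * (a3 P Q) * (t3 P Q)
    + k 1296 * (a3 X Y) * (a3 X Y) * (t3 X Y) * (a3 P Q) * (a3 P Q) * (a3 P Q) * (a3 P Q)
    + k (-3456) * (a3 X Y) * (a3 X Y) * (a3 X Y) * (t3 P Q) * (t3 P Q)
    + k (-1152) * (a3 X Y) * (a3 X Y) * (a3 X Y) * (a3 P Q) * (t3 P Q) * (t3 P Q)
    + k 1296 * (a3 X Y) * (a3 X Y) * (a3 X Y) * (a3 P Q) * (a3 P Q) * (t3 P Q)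
    + k 3168 * (a3 X Y) * (a3 X Y) * (a3 X Y) * (a3 P Q) * (a3 P Q) * (a3 P Q)
    + k 432 * (a3 X Y) * (a3 X Y) * (a3 X Y) * (a3 P Q) * (a3 P Q) * (a3 P Q) * (t3 P Q)
    + k 1056 * (a3 X Y) * (a3 X Y) * (a3 X Y) * (a3 P Q) * (a3 P Q) * (a3 P Q) * (a3 P Q)
    + k 576 * (a3 X Y) * (a3 X Y) * (a3 X Y) * (t3 X Y) * (t3 P Q) * (t3 P Q)
    + k (-72) * (a3 X Y) * (a3 X Y) * (a3 X Y) * (t3 X Y) * (t3 P Q) * (t3 P Q) * (t3 P Q)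
    + k 720 * (a3 X Y) * (a3 X Y) * (a3 X Y) * (t3 X Y) * (a3 P Q) * (t3 P Q)
    + k 288 * (a3 X Y) * (a3 X Y) * (a3 X Y) * (t3 X Y) * (a3 P Q) * (t3 P Q) * (t3 P Q)
    + k 1152 * (a3 X Y) * (a3 X Y) * (a3 X Y) * (t3 X Y) * (a3 P Q) * (a3 P Q) * (t3 P Q)
    + k 432 * (a3 X Y) * (a3 X Y) * (a3 X Y) * (t3 X Y) * (a3 P Q) * (a3 P Q) * (a3 P Q)
    + k 197 * (a3 X Y) * (a3 X Y) * (a3 X Y) * (t3 X Y) * (a3 P Q) * (a3 P Q) * (a3 P Q) * (t3 P Q)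
    + k 196 * (a3 X Y) * (a3 X Y) * (a3 X Y) * (t3 X Y) * (a3 P Q) * (a3 P Q) * (a3 P Q) * (a3 P Q)
    + k (-1152) * (a3 X Y) * (a3 X Y) * (a3 X Y) * (a3 X Y) * (t3 P Q) * (t3 P Q)
    + k (-96) * (a3 X Y) * (a3 X Y) * (a3 X Y) * (a3 X Y) * (t3 P Q) * (t3 P Q) * (t3 P Q)
    + k (-576) * (a3 X Y) * (a3 X Y) * (a3 X Y) * (a3 X Y) * (a3 P Q) * (t3 P Q) * (t3 P Q)
    + k 1296 * (a3 X Y) * (a3 X Y) * (a3 X Y) * (a3 X Y) * (a3 P Q) * (a3 P Q) * (t3 P Q)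
    + k 1056 * (a3 X Y) * (a3 X Y) * (a3 X Y) * (a3 X Y) * (a3 P Q) * (a3 P Q) * (a3 P Q)
    + k 196 * (a3 X Y) * (a3 X Y) * (a3 X Y) * (a3 X Y) * (a3 P Q) * (a3 P Q) * (a3 P Q) * (t3 P Q)
    + k 528 * (a3 X Y) * (a3 X Y) * (a3 X Y) * (a3 X Y) * (a3 P Q) * (a3 P Q) * (a3 P Q) * (a3 P Q)

/-- Difference for exponent 5; `two` flips its sign. -/
def diff5 (two : Bool) (k : ℤ → S) (x y z v : S) : S :=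
  if two then
    rhs5 k (k 3 * x - k 1) (k 3 * y - k 1) (k 3 * z - k 1) (k 3 * v - k 1)
      - lhs5 k (k 3 * x - k 1) (k 3 * y - k 1) (k 3 * z - k 1) (k 3 * v - k 1)
  else
    lhs5 k (k 3 * x - k 1) (k 3 * y - k 1) (k 3 * z - k 1) (k 3 * v - k 1)
      - rhs5 k (k 3 * x - k 1) (k 3 * y - k 1) (k 3 * z - k 1) (k 3 * v - k 1)

/-- Left side for exponent 6. -/
def lhs6 (X Y P Q : S) : S :=
  k 256 * (s2 k X Y P Q (k 0 - P - Q) * s2 k X Y P Q (k 0 - P - Q) * s1 k X Y P Q (k 0 - P - Q) * s1 k X Y P Q (k 0 - P - Q) * s1 k X Y P Q (k 0 - P - Q) * s1 k X Y P Q (k 0 - P - Q) * s1 k X Y P Q (k 0 - P - Q) * s1 k X Y P Q (k 0 - P - Q)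
    + s2 k X Y Q (k 0 - P - Q) P * s2 k X Y Q (k 0 - P - Q) P * s1 k X Y Q (k 0 - P - Q) P * s1 k X Y Q (k 0 - P - Q) P * s1 k X Y Q (k 0 - P - Q) P * s1 k X Y Q (k 0 - P - Q) P * s1 k X Y Q (k 0 - P - Q) P * s1 k X Y Q (k 0 - P - Q) P
    + s2 k X Y (k 0 - P - Q) P Q * s2 k X Y (k 0 - P - Q) P Q * s1 k X Y (k 0 - P - Q) P Q * s1 k X Y (k 0 - P - Q) P Q * s1 k X Y (k 0 - P - Q) P Q * s1 k X Y (k 0 - P - Q) P Q * s1 k X Y (k 0 - P - Q) P Q * s1 k X Y (k 0 - P - Q) P Q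
    + s2 k X Y Q P (k 0 - P - Q) * s2 k X Y Q P (k 0 - P - Q) * s1 k X Y Q P (k 0 - P - Q) * s1 k X Y Q P (k 0 - P - Q) * s1 k X Y Q P (k 0 - P - Q) * s1 k X Y Q P (k 0 - P - Q) * s1 k X Y Q P (k 0 - P - Q) * s1 k X Y Q P (k 0 - P - Q)
    + s2 k X Y P (k 0 - P - Q) Q * s2 k X Y P (k 0 - P - Q) Q * s1 k X Y P (k 0 - P - Q) Q * s1 k X Y P (k 0 - P - Q) Q * s1 k X Y P (k 0 - P - Q) Q * s1 k X Y P (k 0 - P - Q) Q * s1 k X Y P (k 0 - P - Q) Q * s1 k X Y P (k 0 - P - Q) Q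
    + s2 k X Y (k 0 - P - Q) Q P * s2 k X Y (k 0 - P - Q) Q P * s1 k X Y (k 0 - P - Q) Q P * s1 k X Y (k 0 - P - Q) Q P * s1 k X Y (k 0 - P - Q) Q P * s1 k X Y (k 0 - P - Q) Q P * s1 k X Y (k 0 - P - Q) Q P * s1 k X Y (k 0 - P - Q) Q P)

/-- Right side for exponent 6. -/
def rhs6 (X Y P Q : S) : S :=
  k 0
    + k 62208 * (t3 X Y) * (t3 X Y) * (t3 P Q) * (t3 P Q)
    + k 41472 * (t3 X Y) * (t3 X Y) * (a3 P Q) * (t3 P Q) * (t3 P Q)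
    + k 6912 * (t3 X Y) * (t3 X Y) * (a3 P Q) * (a3 P Q) * (t3 P Q) * (t3 P Q)
    + k (-5184) * (t3 X Y) * (t3 X Y) * (a3 P Q) * (a3 P Q) * (a3 P Q)
    + k (-3456) * (t3 X Y) * (t3 X Y) * (a3 P Q) * (a3 P Q) * (a3 P Q) * (a3 P Q)
    + k (-576) * (t3 X Y) * (t3 X Y) * (a3 P Q) * (a3 P Q) * (a3 P Q) * (a3 P Q) * (a3 P Q)
    + k 55296 * (t3 X Y) * (t3 X Y) * (t3 X Y) * (t3 P Q) * (t3 P Q) * (t3 P Q)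
    + k 55296 * (t3 X Y) * (t3 X Y) * (t3 X Y) * (a3 P Q) * (t3 P Q) * (t3 P Q)
    + k 2304 * (t3 X Y) * (t3 X Y) * (t3 X Y) * (a3 P Q) * (a3 P Q) * (t3 P Q) * (t3 P Q)
    + k (-4608) * (t3 X Y) * (t3 X Y) * (t3 X Y) * (a3 P Q) * (a3 P Q) * (a3 P Q) * (t3 P Q)
    + k (-4608) * (t3 X Y) * (t3 X Y) * (t3 X Y) * (a3 P Q) * (a3 P Q) * (a3 P Q) * (a3 P Q)
    + k (-192) * (t3 X Y) * (t3 X Y) * (t3 X Y) * (a3 P Q) * (a3 P Q) * (a3 P Q) * (a3 P Q) * (a3 P Q)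
    + k 41472 * (a3 X Y) * (t3 X Y) * (t3 X Y) * (t3 P Q) * (t3 P Q)
    + k 55296 * (a3 X Y) * (t3 X Y) * (t3 X Y) * (t3 P Q) * (t3 P Q) * (t3 P Q)
    + k 269568 * (a3 X Y) * (t3 X Y) * (t3 X Y) * (a3 P Q) * (t3 P Q) * (t3 P Q)
    + k 20736 * (a3 X Y) * (t3 X Y) * (t3 X Y) * (a3 P Q) * (a3 P Q) * (t3 P Q)
    + k 13824 * (a3 X Y) * (t3 X Y) * (t3 X Y) * (a3 P Q) * (a3 P Q) * (t3 P Q) * (t3 P Q)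
    + k (-3456) * (a3 X Y) * (t3 X Y) * (t3 X Y) * (a3 P Q) * (a3 P Q) * (a3 P Q)
    + k 16128 * (a3 X Y) * (t3 X Y) * (t3 X Y) * (a3 P Q) * (a3 P Q) * (a3 P Q) * (t3 P Q)
    + k (-22464) * (a3 X Y) * (t3 X Y) * (t3 X Y) * (a3 P Q) * (a3 P Q) * (a3 P Q) * (a3 P Q)
    + k (-576) * (a3 X Y) * (t3 X Y) * (t3 X Y) * (a3 P Q) * (a3 P Q) * (a3 P Q) * (a3 P Q) * (a3 P Q)
    + k 20736 * (a3 X Y) * (a3 X Y) * (t3 X Y) * (a3 P Q) * (t3 P Q) * (t3 P Q)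
    + k 72576 * (a3 X Y) * (a3 X Y) * (t3 X Y) * (a3 P Q) * (a3 P Q) * (t3 P Q)
    + k 6912 * (a3 X Y) * (a3 X Y) * (t3 X Y) * (a3 P Q) * (a3 P Q) * (t3 P Q) * (t3 P Q)
    + k 24192 * (a3 X Y) * (a3 X Y) * (t3 X Y) * (a3 P Q) * (a3 P Q) * (a3 P Q) * (t3 P Q)
    + k 2592 * (a3 X Y) * (a3 X Y) * (t3 X Y) * (a3 P Q) * (a3 P Q) * (a3 P Q) * (a3 P Q)
    + k 864 * (a3 X Y) * (a3 X Y) * (t3 X Y) * (a3 P Q) * (a3 P Q) * (a3 P Q) * (a3 P Q) * (a3 P Q)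
    + k 6912 * (a3 X Y) * (a3 X Y) * (t3 X Y) * (t3 X Y) * (t3 P Q) * (t3 P Q)
    + k 2304 * (a3 X Y) * (a3 X Y) * (t3 X Y) * (t3 X Y) * (t3 P Q) * (t3 P Q) * (t3 P Q)
    + k 13824 * (a3 X Y) * (a3 X Y) * (t3 X Y) * (t3 X Y) * (a3 P Q) * (t3 P Q) * (t3 P Q)
    + k 6912 * (a3 X Y) * (a3 X Y) * (t3 X Y) * (t3 X Y) * (a3 P Q) * (a3 P Q) * (t3 P Q)
    + k 3888 * (a3 X Y) * (a3 X Y) * (t3 X Y) * (t3 X Y) * (a3 P Q) * (a3 P Q) * (t3 P Q) * (t3 P Q)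
    + k (-576) * (a3 X Y) * (a3 X Y) * (t3 X Y) * (t3 X Y) * (a3 P Q) * (a3 P Q) * (a3 P Q)
    + k 3552 * (a3 X Y) * (a3 X Y) * (t3 X Y) * (t3 X Y) * (a3 P Q) * (a3 P Q) * (a3 P Q) * (t3 P Q)
    + k 288 * (a3 X Y) * (a3 X Y) * (t3 X Y) * (t3 X Y) * (a3 P Q) * (a3 P Q) * (a3 P Q) * (a3 P Q)
    + k (-324) * (a3 X Y) * (a3 X Y) * (t3 X Y) * (t3 X Y) * (a3 P Q) * (a3 P Q) * (a3 P Q) * (a3 P Q) * (a3 P Q)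
    + k (-5184) * (a3 X Y) * (a3 X Y) * (a3 X Y) * (t3 P Q) * (t3 P Q)
    + k (-3456) * (a3 X Y) * (a3 X Y) * (a3 X Y) * (a3 P Q) * (t3 P Q) * (t3 P Q)
    + k (-576) * (a3 X Y) * (a3 X Y) * (a3 X Y) * (a3 P Q) * (a3 P Q) * (t3 P Q) * (t3 P Q)
    + k 4752 * (a3 X Y) * (a3 X Y) * (a3 X Y) * (a3 P Q) * (a3 P Q) * (a3 P Q)
    + k 3168 * (a3 X Y) * (a3 X Y) * (a3 X Y) * (a3 P Q) * (a3 P Q) * (a3 P Q) * (a3 P Q)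
    + k 528 * (a3 X Y) * (a3 X Y) * (a3 X Y) * (a3 P Q) * (a3 P Q) * (a3 P Q) * (a3 P Q) * (a3 P Q)
    + k (-4608) * (a3 X Y) * (a3 X Y) * (a3 X Y) * (t3 X Y) * (t3 P Q) * (t3 P Q) * (t3 P Q)
    + k 16128 * (a3 X Y) * (a3 X Y) * (a3 X Y) * (t3 X Y) * (a3 P Q) * (t3 P Q) * (t3 P Q)
    + k 24192 * (a3 X Y) * (a3 X Y) * (a3 X Y) * (t3 X Y) * (a3 P Q) * (a3 P Q) * (t3 P Q)
    + k 3552 * (a3 X Y) * (a3 X Y) * (a3 X Y) * (t3 X Y) * (a3 P Q) * (a3 P Q) * (t3 P Q) * (t3 P Q)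
    + k 16320 * (a3 X Y) * (a3 X Y) * (a3 X Y) * (t3 X Y) * (a3 P Q) * (a3 P Q) * (a3 P Q) * (t3 P Q)
    + k 6816 * (a3 X Y) * (a3 X Y) * (a3 X Y) * (t3 X Y) * (a3 P Q) * (a3 P Q) * (a3 P Q) * (a3 P Q)
    + k 392 * (a3 X Y) * (a3 X Y) * (a3 X Y) * (t3 X Y) * (a3 P Q) * (a3 P Q) * (a3 P Q) * (a3 P Q) * (a3 P Q)
    + k (-3456) * (a3 X Y) * (a3 X Y) * (a3 X Y) * (a3 X Y) * (t3 P Q) * (t3 P Q)
    + k (-4608) * (a3 X Y) * (a3 X Y) * (a3 X Y) * (a3 X Y) * (t3 P Q) * (t3 P Q) * (t3 P Q)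
    + k (-22464) * (a3 X Y) * (a3 X Y) * (a3 X Y) * (a3 X Y) * (a3 P Q) * (t3 P Q) * (t3 P Q)
    + k 2592 * (a3 X Y) * (a3 X Y) * (a3 X Y) * (a3 X Y) * (a3 P Q) * (a3 P Q) * (t3 P Q)
    + k 288 * (a3 X Y) * (a3 X Y) * (a3 X Y) * (a3 X Y) * (a3 P Q) * (a3 P Q) * (t3 P Q) * (t3 P Q)
    + k 3168 * (a3 X Y) * (a3 X Y) * (a3 X Y) * (a3 X Y) * (a3 P Q) * (a3 P Q) * (a3 P Q)
    + k 6816 * (a3 X Y) * (a3 X Y) * (a3 X Y) * (a3 X Y) * (a3 P Q) * (a3 P Q) * (a3 P Q) * (t3 P Q)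
    + k 10872 * (a3 X Y) * (a3 X Y) * (a3 X Y) * (a3 X Y) * (a3 P Q) * (a3 P Q) * (a3 P Q) * (a3 P Q)
    + k 528 * (a3 X Y) * (a3 X Y) * (a3 X Y) * (a3 X Y) * (a3 P Q) * (a3 P Q) * (a3 P Q) * (a3 P Q) * (a3 P Q)
    + k (-576) * (a3 X Y) * (a3 X Y) * (a3 X Y) * (a3 X Y) * (a3 X Y) * (t3 P Q) * (t3 P Q)
    + k (-192) * (a3 X Y) * (a3 X Y) * (a3 X Y) * (a3 X Y) * (a3 X Y) * (t3 P Q) * (t3 P Q) * (t3 P Q)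
    + k (-576) * (a3 X Y) * (a3 X Y) * (a3 X Y) * (a3 X Y) * (a3 X Y) * (a3 P Q) * (t3 P Q) * (t3 P Q)
    + k 864 * (a3 X Y) * (a3 X Y) * (a3 X Y) * (a3 X Y) * (a3 X Y) * (a3 P Q) * (a3 P Q) * (t3 P Q)
    + k (-324) * (a3 X Y) * (a3 X Y) * (a3 X Y) * (a3 X Y) * (a3 X Y) * (a3 P Q) * (a3 P Q) * (t3 P Q) * (t3 P Q)
    + k 528 * (a3 X Y) * (a3 X Y) * (a3 X Y) * (a3 X Y) * (a3 X Y) * (a3 P Q) * (a3 P Q) * (a3 P Q)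
    + k 392 * (a3 X Y) * (a3 X Y) * (a3 X Y) * (a3 X Y) * (a3 X Y) * (a3 P Q) * (a3 P Q) * (a3 P Q) * (t3 P Q)
    + k 528 * (a3 X Y) * (a3 X Y) * (a3 X Y) * (a3 X Y) * (a3 X Y) * (a3 P Q) * (a3 P Q) * (a3 P Q) * (a3 P Q)
    + k 129 * (a3 X Y) * (a3 X Y) * (a3 X Y) * (a3 X Y) * (a3 X Y) * (a3 P Q) * (a3 P Q) * (a3 P Q) * (a3 P Q) * (a3 P Q)

/-- Difference for exponent 6; `two` flips its sign. -/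
def diff6 (two : Bool) (k : ℤ → S) (x y z v : S) : S :=
  if two then
    rhs6 k (k 3 * x - k 1) (k 3 * y - k 1) (k 3 * z - k 1) (k 3 * v - k 1)
      - lhs6 k (k 3 * x - k 1) (k 3 * y - k 1) (k 3 * z - k 1) (k 3 * v - k 1)
  else
    lhs6 k (k 3 * x - k 1) (k 3 * y - k 1) (k 3 * z - k 1) (k 3 * v - k 1)
      - rhs6 k (k 3 * x - k 1) (k 3 * y - k 1) (k 3 * z - k 1) (k 3 * v - k 1)

end defs

end Vale.Agent.P154.AF
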