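import Vale.Agent.P154.AF.Averages
import Vale.Agent.P154.AF.AveragesC
import Vale.Agent.P154.AF.AveragesC2
import Vale.Agent.P154.AF.CertApply
import Vale.Agent.P154.Chan

/-!
The two kernel inequalities for the antiferromagnetic three-state channel with `|λ| ≤ 0.19612`:
the first factor is the observation of one child (a narrow likelihood vector), the second one is
arbitrary.
-/

namespace Vale.Agent.P154.AF

/-- The largest absolute value of the channel parameter that is covered. -/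
noncomputable def lim : ℝ := 4903 / 25000

/-- Third-moment functional. -/
noncomputable def fT (L : Fin 3 → ℝ) : ℝ :=
  (L 0 ^ 3 + L 1 ^ 3 + L 2 ^ 3) / 3 / pP L ^ 2 - 3 * ((L 0 ^ 2 + L 1 ^ 2 + L 2 ^ 2) / 3 / pP L)
    + 2 * pP L

/-- The invariant functional. -/
noncomputable def fR (L : Fin 3 → ℝ) : ℝ :=
  fT L + 6 / 25 * fB L - 53 / 100 * (fB L ^ 2 / pP L)

/-- A likelihood vector as seen through one edge. -/
def Narrow (L : Fin 3 → ℝ) : Prop :=
  ∀ i, (1 - 2 * lim) * pP L ≤ L i ∧ L i ≤ (1 + lim) * pP L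

/-- Upper bound for `1/(1+X)`. -/
noncomputable def u1 (X : ℝ) : ℝ := 1 - X + X ^ 2 - X ^ 3 + 33 / 20 * X ^ 4
/-- Lower bound for `1/(1+X)^2`. -/
noncomputable def l2 (X : ℝ) : ℝ := 1 - 2 * X + 3 * X ^ 2 - 4 * X ^ 3 + 101 / 25 * X ^ 4
/-- Upper bound for `1/(1+X)^3`. -/
noncomputable def u3 (X : ℝ) : ℝ :=
  1 - 3 * X + 6 * X ^ 2 - 10 * X ^ 3 + 15 * X ^ 4 - 21 * X ^ 5 + 56 * X ^ 6

lemma inv_bounds {X : ℝ} (h0 : -(2 * lim) ≤ X) (h1 : X ≤ lim) :
    0 < 1 + X ∧ 1 / (1 + X) ≤ u1 X ∧ l2 X ≤ 1 / (1 + X) ^ 2 ∧ 1 / (1 + X) ^ 3 ≤ u3 X := by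
  simp only [lim] at h0 h1
  have hp : 0 < 1 + X := by linarith
  refine ⟨hp, ?_, ?_, ?_⟩
  · rw [div_le_iff₀ hp]
    have e : u1 X * (1 + X) - 1 = X ^ 4 * (33 / 20 * (1 + X) - 1) := by simp only [u1]; ring
    have : 0 ≤ X ^ 4 * (33 / 20 * (1 + X) - 1) := mul_nonneg (by positivity) (by linarith)
    linarith
  · rw [le_div_iff₀ (by positivity)]
    have e : 1 - l2 X * (1 + X) ^ 2 = X ^ 4 * (5 + 4 * X - 101 / 25 * (1 + X) ^ 2) := by
      simp only [l2]; ring
    have : 0 ≤ X ^ 4 * (5 + 4 * X - 101 / 25 * (1 + X) ^ 2) := mul_nonneg (by positivity)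
      (by nlinarith [mul_nonneg (sub_nonneg.mpr h0) (sub_nonneg.mpr h1)])
    linarith
  · rw [div_le_iff₀ (by positivity)]
    have e : u3 X * (1 + X) ^ 3 - 1 = X ^ 6 * (56 * (1 + X) ^ 3 - (28 + 48 * X + 21 * X ^ 2)) := by
      simp only [u3]; ring
    have : 0 ≤ X ^ 6 * (56 * (1 + X) ^ 3 - (28 + 48 * X + 21 * X ^ 2)) := mul_nonneg (by positivity)
      (by
        have g := sub_nonneg.mpr h0
        nlinarith [mul_nonneg (mul_nonneg g g) g, mul_nonneg g g])
    linarith

/-- The pointwise bound for the invariant of one product. -/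
noncomputable def lowR (x y a b c : ℝ) : ℝ :=
  nb x y a b c * l2 (xP x y a b c) - 17 / 10 * (na x y a b c * u1 (xP x y a b c))
    - 53 / 100 * (na x y a b c ^ 2 * u3 (xP x y a b c)) + 123 / 100 * (1 + xP x y a b c)

/-- The pointwise bound for the chi-square of one product. -/
noncomputable def upB (x y a b c : ℝ) : ℝ :=
  na x y a b c * u1 (xP x y a b c) - (1 + xP x y a b c)

lemma product_bounds {c d : ℝ} (hc : 0 < c) (hd : 0 < d) (x y a b e : ℝ) (he : a + b + e = 0)
    (hx : -(2 * lim) ≤ x ∧ x ≤ lim) (hy : -(2 * lim) ≤ y ∧ y ≤ lim)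
    (hz : -(2 * lim) ≤ -x - y ∧ -x - y ≤ lim) (ha : -1 ≤ a) (hb : -1 ≤ b) (hee : -1 ≤ e) :
    fB ![c * (1 + x) * (d * (1 + a)), c * (1 + y) * (d * (1 + b)),
        c * (1 + (-x - y)) * (d * (1 + e))] ≤ c * d * upB x y a b e ∧
    c * d * lowR x y a b e ≤ fR ![c * (1 + x) * (d * (1 + a)), c * (1 + y) * (d * (1 + b)),
        c * (1 + (-x - y)) * (d * (1 + e))] := by
  have ex : xP x y a b e = (x * (1 + a) + y * (1 + b) + (-x - y) * (1 + e)) / 3 := by
    simp only [xP]; ring
  have a0 : 0 ≤ 1 + a := by linarith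
  have b0 : 0 ≤ 1 + b := by linarith
  have e0 : 0 ≤ 1 + e := by linarith
  have h1 : xP x y a b e ≤ lim := by
    rw [ex]
    have := mul_le_mul_of_nonneg_right hx.2 a0
    have := mul_le_mul_of_nonneg_right hy.2 b0
    have := mul_le_mul_of_nonneg_right hz.2 e0
    have : lim * a + lim * b + lim * e = 0 := by linear_combination lim * he
    linarith
  have h0 : -(2 * lim) ≤ xP x y a b e := by
    rw [ex]
    have := mul_le_mul_of_nonneg_right hx.1 a0
    have := mul_le_mul_of_nonneg_right hy.1 b0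
    have := mul_le_mul_of_nonneg_right hz.1 e0
    have : lim * a + lim * b + lim * e = 0 := by linear_combination lim * he
    linarith
  obtain ⟨hp, k1, k2, k3⟩ := inv_bounds h0 h1
  set v : Fin 3 → ℝ := ![c * (1 + x) * (d * (1 + a)), c * (1 + y) * (d * (1 + b)),
    c * (1 + (-x - y)) * (d * (1 + e))] with hv
  have eP : pP v = c * d * (1 + xP x y a b e) := by
    simp [hv, pP, xP]
    linear_combination (c * d / 3) * he
  have e2 : (v 0 ^ 2 + v 1 ^ 2 + v 2 ^ 2) / 3 = (c * d) ^ 2 * na x y a b e := by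
    simp [hv, na]; ring
  have e3 : (v 0 ^ 3 + v 1 ^ 3 + v 2 ^ 3) / 3 = (c * d) ^ 3 * nb x y a b e := by
    simp [hv, nb]; ring
  have n0 : 0 ≤ na x y a b e := by simp only [na]; positivity
  have zx : 0 ≤ 1 + x := by simp only [lim] at hx; linarith
  have zy : 0 ≤ 1 + y := by simp only [lim] at hy; linarith
  have zz : 0 ≤ 1 + (-x - y) := by simp only [lim] at hz; linarith
  have m0 : 0 ≤ nb x y a b e := by simp only [nb]; positivity
  have cd : 0 < c * d := mul_pos hc hd
  set X := xP x y a b e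
  set N := na x y a b e
  set M := nb x y a b e
  have eB : fB v = c * d * (N * (1 / (1 + X)) - (1 + X)) := by
    rw [fB, e2, eP]; field_simp
  have eR : fR v = c * d * (M * (1 / (1 + X) ^ 2) - 17 / 10 * (N * (1 / (1 + X)))
      - 53 / 100 * (N ^ 2 * (1 / (1 + X) ^ 3)) + 123 / 100 * (1 + X)) := by
    rw [fR, fT, e3, eB, e2, eP]; field_simp; ring
  constructor
  · rw [eB, upB]
    exact mul_le_mul_of_nonneg_left (sub_le_sub_right (mul_le_mul_of_nonneg_left k1 n0) _) cd.le
  · rw [eR, lowR]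
    refine mul_le_mul_of_nonneg_left ?_ cd.le
    have := mul_le_mul_of_nonneg_left k1 n0
    have := mul_le_mul_of_nonneg_left k2 m0
    have := mul_le_mul_of_nonneg_left k3 (sq_nonneg N)
    linarith

set_option maxHeartbeats 1600000 in
lemma scalar_bounds (x y p q : ℝ) (hx : -(2 * lim) ≤ x ∧ x ≤ lim) (hy : -(2 * lim) ≤ y ∧ y ≤ lim)
    (hz : -(2 * lim) ≤ -x - y ∧ -x - y ≤ lim) (hp : -1 ≤ p) (hq : -1 ≤ q) (hr : -1 ≤ -p - q) :
    six (upB x y) p q ≤ iA x y + iA p q
        - 26 / 25 * (iA x y * (iT p q + 6 / 25 * iA p q - 53 / 100 * iA p q ^ 2))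
        - 1 / 500 * (iA x y * iA p q) ∧
    (1 - 114 / 25 * iA x y) * (iT p q + 6 / 25 * iA p q - 53 / 100 * iA p q ^ 2) ≤
      six (lowR x y) p q := by
  have hl : (0 : ℝ) < lim := by norm_num [lim]
  have d1 := inDom_of (-x / lim) (-y / lim)
    (by rw [le_div_iff₀ hl]; linarith [hx.2]) (by rw [le_div_iff₀ hl]; linarith [hy.2])
    (by rw [show -(-x / lim) - -y / lim = (x + y) / lim by ring, le_div_iff₀ hl]; linarith [hz.2])
  have d2 := inDom_of p q hp hq hr
  have eA : iA (-x / lim) (-y / lim) = iA x y / lim ^ 2 := by simp only [iA]; field_simp; ring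
  have eT : iT (-x / lim) (-y / lim) = -iT x y / lim ^ 3 := by simp only [iT]; field_simp; ring
  rw [eA, eT] at d1
  have rx : -1 ≤ x ∧ x ≤ 2 := by simp only [lim] at hx; constructor <;> linarith
  have ry : -1 ≤ y ∧ y ≤ 2 := by simp only [lim] at hy; constructor <;> linarith
  have rp : -1 ≤ p ∧ p ≤ 2 := ⟨hp, by linarith⟩
  have rq : -1 ≤ q ∧ q ≤ 2 := ⟨hq, by linarith⟩
  have a0 := avgNa0 x y p q; have a1 := avgNa1 x y p q; have a2 := avgNa2 x y p q
  have a3' := avgNa3 x y p q; have a4 := avgNa4 x y p q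
  have b0 := avgNb0 x y p q; have b1 := avgNb1 x y p q; have b2 := avgNb2 x y p q
  have b3 := avgNb3 x y p q; have b4 := avgNb4 x y p q
  have c0 := avgNc0 x y p q; have c1 := avgNc1 x y p q; have c2 := avgNc2 x y p q
  have c3 := avgNc3 x y p q rx ry rp rq; have c4 := avgNc4 x y p q rx ry rp rq
  have c5 := avgNc5 x y p q rx ry rp rq; have c6 := avgNc6 x y p q rx ry rp rq
  have sX : six (xP x y) p q = 0 := by simp only [six, xP]; ring
  have eU : six (upB x y) p q =
      six (fun a b c => na x y a b c) p q - six (fun a b c => na x y a b c * xP x y a b c) p q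
      + six (fun a b c => na x y a b c * xP x y a b c ^ 2) p q
      - six (fun a b c => na x y a b c * xP x y a b c ^ 3) p q
      + 33 / 20 * six (fun a b c => na x y a b c * xP x y a b c ^ 4) p q
      - (1 + six (xP x y) p q) := by
    simp only [six, upB, u1]; ring
  have eL : six (lowR x y) p q =
      six (fun a b c => nb x y a b c) p q - 2 * six (fun a b c => nb x y a b c * xP x y a b c) p q
      + 3 * six (fun a b c => nb x y a b c * xP x y a b c ^ 2) p q
      - 4 * six (fun a b c => nb x y a b c * xP x y a b c ^ 3) p q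
      + 101 / 25 * six (fun a b c => nb x y a b c * xP x y a b c ^ 4) p q
      - 17 / 10 * (six (fun a b c => na x y a b c) p q
        - six (fun a b c => na x y a b c * xP x y a b c) p q
        + six (fun a b c => na x y a b c * xP x y a b c ^ 2) p q
        - six (fun a b c => na x y a b c * xP x y a b c ^ 3) p q
        + 33 / 20 * six (fun a b c => na x y a b c * xP x y a b c ^ 4) p q)
      - 53 / 100 * (six (fun a b c => na x y a b c ^ 2) p q
        - 3 * six (fun a b c => na x y a b c ^ 2 * xP x y a b c) p q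
        + 6 * six (fun a b c => na x y a b c ^ 2 * xP x y a b c ^ 2) p q
        - 10 * six (fun a b c => na x y a b c ^ 2 * xP x y a b c ^ 3) p q
        + 15 * six (fun a b c => na x y a b c ^ 2 * xP x y a b c ^ 4) p q
        - 21 * six (fun a b c => na x y a b c ^ 2 * xP x y a b c ^ 5) p q
        + 56 * six (fun a b c => na x y a b c ^ 2 * xP x y a b c ^ 6) p q)
      + 123 / 100 * (1 + six (xP x y) p q) := by
    simp only [six, lowR, u1, l2, u3]; ring
  rw [a0, a1, a2, a3', a4, sX] at eU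
  rw [a0, a1, a2, a3', a4, b0, b1, b2, b3, b4, c0, c1, c2, c3, c4, c5, c6, sX] at eL
  have k1 := certA_nonneg d1 d2
  have k2 := certB_nonneg d1 d2
  constructor
  · have key : iA x y + iA p q
        - 26 / 25 * (iA x y * (iT p q + 6 / 25 * iA p q - 53 / 100 * iA p q ^ 2))
        - 1 / 500 * (iA x y * iA p q) - six (upB x y) p q
        = 24039409 / 10 ^ 31 * certA (fun n => (n : ℝ)) (2 * (iA x y / lim ^ 2))
          (4 * (-iT x y / lim ^ 3)) (2 * iA p q) (4 * iT p q) := by
      rw [eU]; simp only [certA, lim]; push_cast; ring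
    have := mul_nonneg (by norm_num : (0 : ℝ) ≤ 24039409 / 10 ^ 31) k1
    linarith
  · have key : six (lowR x y) p q -
        (1 - 114 / 25 * iA x y) * (iT p q + 6 / 25 * iA p q - 53 / 100 * iA p q ^ 2)
        = 24039409 / (625 * 10 ^ 48) * certB (fun n => (n : ℝ)) (2 * (iA x y / lim ^ 2))
          (4 * (-iT x y / lim ^ 3)) (2 * iA p q) (4 * iT p q) := by
      rw [eL]; simp only [certB, lim]; push_cast; ring
    have := mul_nonneg (by norm_num : (0 : ℝ) ≤ 24039409 / (625 * 10 ^ 48)) k2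
    linarith

lemma normalise' (L : Fin 3 → ℝ) (hp : 0 < pP L) :
    ∃ x y : ℝ, L = ![pP L * (1 + x), pP L * (1 + y), pP L * (1 + (-x - y))] := by
  refine ⟨L 0 / pP L - 1, L 1 / pP L - 1, funext fun i => ?_⟩
  fin_cases i <;> simp <;> field_simp <;> simp only [pP] <;> ring

lemma fB_norm' {c : ℝ} (hc : 0 < c) (x y : ℝ) :
    fR ![c * (1 + x), c * (1 + y), c * (1 + (-x - y))] =
      c * (iT x y + 6 / 25 * iA x y - 53 / 100 * iA x y ^ 2) := by
  have e := pP_norm c x y
  rw [fR, fT, fB_norm hc, e]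
  simp [iA, iT]
  field_simp
  ring

/-- The two kernel inequalities. -/
theorem kernel (L M : Fin 3 → ℝ) (hL : ∀ i, 0 ≤ L i) (hM : ∀ i, 0 ≤ M i) (hn : Narrow L) :
    avg6 fB L M ≤ fB L * pP M + pP L * fB M - 26 / 25 * (fB L * fR M)
        - 1 / 500 * (fB L * fB M) ∧
      (pP L - 114 / 25 * fB L) * fR M ≤ avg6 fR L M := by
  rcases (pP_nonneg hL).lt_or_eq with hc | hc
  swap
  · have e : L = 0 := funext fun i => by
      have := le_three_pP hL i; have := hL i; simp; linarith
    subst e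
    simp [avg6, fB, fR, fT, pP]
  rcases (pP_nonneg hM).lt_or_eq with hd | hd
  swap
  · have e : M = 0 := funext fun i => by
      have := le_three_pP hM i; have := hM i; simp; linarith
    subst e
    simp [avg6, fB, fR, fT, pP]
  obtain ⟨x, y, eL⟩ := normalise' L hc
  obtain ⟨p, q, eM⟩ := normalise' M hd
  generalize pP L = c at hc eL
  generalize pP M = d at hd eM
  subst eL eM
  simp only [Narrow, pP_norm] at hn
  have gx := hn 0; have gy := hn 1; have gz := hn 2
  simp only [Matrix.cons_val_zero, Matrix.cons_val_one, Matrix.cons_val] at gx gy gz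
  have sc : ∀ t : ℝ, (1 - 2 * lim) * c ≤ c * (1 + t) ∧ c * (1 + t) ≤ (1 + lim) * c →
      -(2 * lim) ≤ t ∧ t ≤ lim := fun t h => ⟨by
        have : c * (-(2 * lim)) ≤ c * t := by linarith [h.1]
        exact le_of_mul_le_mul_left this hc, by
        have : c * t ≤ c * lim := by linarith [h.2]
        exact le_of_mul_le_mul_left this hc⟩
  have hx := sc x gx; have hy := sc y gy; have hz := sc _ gz
  have low : ∀ t : ℝ, 0 ≤ d * (1 + t) → -1 ≤ t := fun t h => by
    have := nonneg_of_mul_nonneg_right h hd; linarith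
  have ha := low p (by simpa using hM 0); have hb := low q (by simpa using hM 1)
  have he := low (-p - q) (by simpa using hM 2)
  obtain ⟨sA, sB⟩ := scalar_bounds x y p q hx hy hz ha hb he
  have P := fun a b e (h : a + b + e = 0) (h1 : -1 ≤ a) (h2 : -1 ≤ b) (h3 : -1 ≤ e) =>
    product_bounds hc hd x y a b e h hx hy hz h1 h2 h3
  obtain ⟨u1', l1'⟩ := P p q (-p - q) (by ring) ha hb he
  obtain ⟨u2', l2'⟩ := P q (-p - q) p (by ring) hb he ha
  obtain ⟨u3', l3'⟩ := P (-p - q) p q (by ring) he ha hb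
  obtain ⟨u4', l4'⟩ := P q p (-p - q) (by ring) hb ha he
  obtain ⟨u5', l5'⟩ := P p (-p - q) q (by ring) ha he hb
  obtain ⟨u6', l6'⟩ := P (-p - q) q p (by ring) he hb ha
  rw [fB_norm hc, fB_norm hd, fB_norm' hd]
  simp only [avg6, Matrix.cons_val_zero, Matrix.cons_val_one, Matrix.cons_val]
  have cd : 0 ≤ c * d := by positivity
  have tA := mul_le_mul_of_nonneg_left sA cd
  have tB := mul_le_mul_of_nonneg_left sB cd
  simp only [six] at tA tB
  constructor <;> linarith

end Vale.Agent.P154.AF
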