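import Vale.Agent.P154.AF.Kernel
import Vale.Agent.P154.Recursion

/-!
Nonreconstruction for the antiferromagnetic three-state channel with `-0.19612 ≤ λ ≤ 0`, for
every offspring law, up to and at the Kesten–Stigum value.
-/

namespace Vale.Agent.P154.AF

open Filter Topology

variable {lam : ℝ} {ν : ℕ → ℝ}

lemma mixv_nonneg_neg (h0 : -lim ≤ lam) (h1 : lam ≤ 0) {L : Fin 3 → ℝ} (hL : ∀ i, 0 ≤ L i) :
    Narrow (mixv lam L) ∧ ∀ i, 0 ≤ mixv lam L i := by
  have hp := pP_nonneg hL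
  have key : ∀ i, (1 - 2 * lim) * pP L ≤ mixv lam L i ∧ mixv lam L i ≤ (1 + lim) * pP L := by
    intro i
    have u := mul_nonneg_of_nonpos_of_nonpos h1
      (sub_nonpos.mpr (le_three_pP hL i) : L i - 3 * pP L ≤ 0)
    have v := mul_nonpos_of_nonpos_of_nonneg h1 (hL i)
    have w := mul_le_mul_of_nonneg_right h0 hp
    constructor <;> simp only [mixv] <;> linarith
  refine ⟨fun i => by rw [pP_mixv]; exact key i, fun i => le_trans ?_ (key i).1⟩
  exact mul_nonneg (by norm_num [lim]) hp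

/-- Pass every observation through the antiferromagnetic kernel. -/
noncomputable def mixNeg (C : Chan) (lam : ℝ) (h0 : -lim ≤ lam) (h1 : lam ≤ 0) : Chan where
  ι := C.ι
  V y := mixv lam (C.V y)
  nonneg y := (mixv_nonneg_neg h0 h1 (C.nonneg y)).2
  total i := by
    simpa [mixv] using ((C.total i).mul_left lam).add (C.hasSum_pP.mul_left (1 - lam))
  sym π := by
    obtain ⟨e, he⟩ := C.sym π
    refine ⟨e, fun y i => ?_⟩
    have : C.V (e y) = fun i => C.V y (π i) := funext (he y)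
    simp only [mixv]
    rw [this, pP_perm]

/-- Normal form of a nonnegative vector. -/
lemma fR_cases (L : Fin 3 → ℝ) (hL : ∀ i, 0 ≤ L i) :
    ∃ A T : ℝ, 0 ≤ A ∧ A ≤ 2 ∧ |T| ≤ A ∧ fB L = pP L * A ∧
      fR L = pP L * (T + 6 / 25 * A - 53 / 100 * A ^ 2) ∧
      ∀ lam : ℝ, fR (mixv lam L) =
        pP L * (lam ^ 3 * T + 6 / 25 * (lam ^ 2 * A) - 53 / 100 * (lam ^ 2 * A) ^ 2) := by
  rcases (pP_nonneg hL).lt_or_eq with hc | hc
  swap
  · refine ⟨0, 0, le_rfl, by norm_num, by norm_num, ?_, ?_, fun l => ?_⟩ <;>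
      simp [fR, fT, fB, pP_mixv, ← hc]
  obtain ⟨x, y, eL⟩ := normalise' L hc
  have hL' : ∀ i, 0 ≤ ![pP L * (1 + x), pP L * (1 + y), pP L * (1 + (-x - y))] i := eL ▸ hL
  generalize pP L = c at hc eL hL'
  subst eL
  have low : ∀ t : ℝ, 0 ≤ c * (1 + t) → -1 ≤ t := fun t h => by
    have := nonneg_of_mul_nonneg_right h hc; linarith
  have hx := low x (by simpa using hL' 0); have hy := low y (by simpa using hL' 1)
  have hz := low (-x - y) (by simpa using hL' 2)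
  have d := inDom_of x y hx hy hz
  have hA : 0 ≤ iA x y := by linarith [d.nonneg]
  have hA2 : iA x y ≤ 2 := by linarith [d.le_four]
  refine ⟨iA x y, iT x y, hA, hA2, ?_, fB_norm hc x y, fB_norm' hc x y, fun l => ?_⟩
  · refine abs_le_of_sq_le_sq ?_ hA
    nlinarith [d.sq_le, mul_nonneg (mul_nonneg hA hA) (sub_nonneg.mpr hA2)]
  · have e : mixv l ![c * (1 + x), c * (1 + y), c * (1 + (-x - y))] =
        ![c * (1 + l * x), c * (1 + l * y), c * (1 + (-(l * x) - l * y))] := by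
      funext i
      simp only [mixv, pP_norm]
      fin_cases i <;> simp <;> ring
    rw [e, fB_norm' hc]
    simp only [iA, iT]; ring

lemma fB_le_two {L : Fin 3 → ℝ} (hL : ∀ i, 0 ≤ L i) : fB L ≤ 2 * pP L := by
  obtain ⟨A, T, -, h2, -, e, -, -⟩ := fR_cases L hL
  rw [e, mul_comm 2]
  exact mul_le_mul_of_nonneg_left h2 (pP_nonneg hL)

lemma fR_mixv_nonneg (h0 : -lim ≤ lam) (h1 : lam ≤ 0) {L : Fin 3 → ℝ} (hL : ∀ i, 0 ≤ L i) :
    0 ≤ fR (mixv lam L) := by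
  obtain ⟨A, T, hA, hA2, hT, -, -, e⟩ := fR_cases L hL
  rw [e lam]
  refine mul_nonneg (pP_nonneg hL) ?_
  obtain ⟨-, hT2⟩ := abs_le.mp hT
  simp only [lim] at h0
  have u := mul_le_mul_of_nonpos_left hT2 h1
  have v : lam ^ 2 ≤ 1 / 25 := by nlinarith
  have : lam ^ 3 * T + 6 / 25 * (lam ^ 2 * A) - 53 / 100 * (lam ^ 2 * A) ^ 2 =
      lam ^ 2 * (lam * T + 6 / 25 * A - 53 / 100 * (lam ^ 2 * A ^ 2)) := by ring
  rw [this]
  refine mul_nonneg (sq_nonneg lam) ?_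
  have w : lam ^ 2 * A ^ 2 ≤ (4903 / 25000) ^ 2 * (2 * A) := by
    refine mul_le_mul ?_ (by nlinarith) (sq_nonneg A) (by norm_num)
    nlinarith
  nlinarith

lemma adm_fR : Adm fR := ⟨6, fun L hL => by
  obtain ⟨A, T, hA, hA2, hT, -, e, -⟩ := fR_cases L hL
  rw [e, abs_mul, abs_of_nonneg (pP_nonneg hL), mul_comm (6 : ℝ)]
  refine mul_le_mul_of_nonneg_left ?_ (pP_nonneg hL)
  obtain ⟨h1, h2⟩ := abs_le.mp hT
  rw [abs_le]; constructor <;> nlinarith⟩

lemma fR_smul (c : ℝ) (L : Fin 3 → ℝ) : fR (fun i => c * L i) = c * fR L := by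
  by_cases hc : c = 0
  · simp [fR, fT, fB, pP, hc]
  have e : pP (fun i => c * L i) = c * pP L := by simp [pP]; ring
  by_cases hp : pP L = 0
  · simp [fR, fT, fB, e, hp]
  · simp only [fR, fT, fB_smul, e]; field_simp

theorem star_bound (C B : Chan) (hn : ∀ y, Narrow (C.V y)) (hs : C.E fB ≤ 2 / 25)
    (hB : 0 ≤ B.E fR) :
    (C.star B).E fB ≤ C.E fB + B.E fB - 1 / 500 * (C.E fB * B.E fB) ∧
      0 ≤ (C.star B).E fR := by
  have hp : ∀ {F G : (Fin 3 → ℝ) → ℝ}, Adm F → Adm G →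
      HasSum (fun y : C.ι × B.ι => F (C.V y.1) * G (B.V y.2)) (C.E F * B.E G) := by
    intro F G hF hG
    have := (C.summable_pair B hF hG).hasSum
    rwa [C.tsum_pair B hF hG] at this
  constructor
  · have h1 := (((hp adm_fB adm_pP).add (hp adm_pP adm_fB)).sub
      ((hp adm_fB adm_fR).mul_left (26 / 25))).sub ((hp adm_fB adm_fB).mul_left (1 / 500))
    have hk : ∀ y : C.ι × B.ι, avg6 fB (C.V y.1) (B.V y.2) ≤
        fB (C.V y.1) * pP (B.V y.2) + pP (C.V y.1) * fB (B.V y.2)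
          - 26 / 25 * (fB (C.V y.1) * fR (B.V y.2))
          - 1 / 500 * (fB (C.V y.1) * fB (B.V y.2)) :=
      fun y => (kernel (C.V y.1) (B.V y.2) (C.nonneg _) (B.nonneg _) (hn _)).1
    have h2 := hasSum_le hk (C.hasSum_avg6 B adm_fB) h1
    rw [C.E_pP, B.E_pP, mul_one, one_mul] at h2
    have := mul_nonneg (C.E_nonneg fun L hL => fB_nonneg hL) hB
    linarith
  · have h1 := (hp adm_pP adm_fR).sub ((hp adm_fB adm_fR).mul_left (114 / 25))
    have hk : ∀ y : C.ι × B.ι,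
        pP (C.V y.1) * fR (B.V y.2) - 114 / 25 * (fB (C.V y.1) * fR (B.V y.2)) ≤
          avg6 fR (C.V y.1) (B.V y.2) := fun y => by
      have := (kernel (C.V y.1) (B.V y.2) (C.nonneg _) (B.nonneg _) (hn _)).2
      linarith
    have h2 := hasSum_le hk h1 (C.hasSum_avg6 B adm_fR)
    rw [C.E_pP, one_mul] at h2
    have := mul_le_mul_of_nonneg_right hs hB
    linarith

theorem pw_bound (C : Chan) (hn : ∀ y, Narrow (C.V y)) (hs : C.E fB ≤ 2 / 25)
    (hC : 0 ≤ C.E fR) : ∀ k : ℕ,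
    0 ≤ (C.pw k).E fR ∧ (C.pw k).E fB ≤ k * C.E fB ∧
      (2 ≤ k → (C.pw k).E fB ≤ k * C.E fB - 1 / 500 * C.E fB ^ 2) := by
  intro k
  induction k with
  | zero =>
    refine ⟨?_, ?_, by omega⟩
    · rw [C.E_pw_zero]; norm_num [fR, fT, fB, pP]
    · rw [C.E_pw_zero]; norm_num [fB, pP]
  | succ k ih =>
    obtain ⟨h1, h2⟩ := star_bound C (C.pw k) hn hs ih.1
    rw [← C.E_pw_succ] at h1 h2
    have hb := C.E_nonneg fun L hL => fB_nonneg hL
    have hk := (C.pw k).E_nonneg fun L hL => fB_nonneg hL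
    refine ⟨h2, ?_, fun hk2 => ?_⟩
    · push_cast; nlinarith [ih.2.1, mul_nonneg hb hk]
    · rcases Nat.eq_or_lt_of_le hk2 with he | hl
      · obtain rfl : k = 1 := by omega
        rw [C.E_pw_one] at h1
        push_cast at h1 ⊢; nlinarith
      · have := ih.2.2 (by omega)
        push_cast; nlinarith [mul_nonneg hb hk]

theorem node_bound (C : Chan) (hn : ∀ y, Narrow (C.V y)) (hs : C.E fB ≤ 2 / 25)
    (hC : 0 ≤ C.E fR) (ν : ℕ → ℝ) (h0 : ∀ k, 0 ≤ ν k) (h1 : HasSum ν 1) {m : ℝ}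
    (hm : HasSum (fun k => ν k * k) m) {k₀ : ℕ} (hk₀ : 2 ≤ k₀) :
    (C.node ν h0 h1).E fB ≤ m * C.E fB - ν k₀ / 500 * C.E fB ^ 2 := by
  have hr := (hm.mul_right (C.E fB)).sub (hasSum_ite_eq k₀ (ν k₀ / 500 * C.E fB ^ 2))
  refine hasSum_le (fun k => ?_) (C.hasSum_node ν h0 h1 adm_fB fB_smul) hr
  split_ifs with hk
  · subst hk
    have := mul_le_mul_of_nonneg_left ((pw_bound C hn hs hC k).2.2 hk₀) (h0 k)
    linarith
  · have := mul_le_mul_of_nonneg_left (pw_bound C hn hs hC k).2.1 (h0 k)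
    linarith

lemma lik_facts (h0 : -lim ≤ lam) (h1 : lam ≤ 0) (hν : ∀ k, 0 ≤ ν k) (hν1 : HasSum ν 1) :
    ∀ n : ℕ, (∀ (y : Obs 3 n) i, 0 ≤ lik 3 lam ν n y i) ∧
      (∀ i, HasSum (fun y : Obs 3 n => lik 3 lam ν n y i) 1) ∧
      ∀ π : Equiv.Perm (Fin 3), ∃ e : Obs 3 n ≃ Obs 3 n,
        ∀ y i, lik 3 lam ν n (e y) i = lik 3 lam ν n y (π i) := by
  intro n
  induction n with
  | zero => exact ⟨baseChan.nonneg, baseChan.total, baseChan.sym⟩
  | succ n ih =>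
    let C : Chan := ⟨Obs 3 n, lik 3 lam ν n, ih.1, ih.2.1, ih.2.2⟩
    let N := (mixNeg C lam h0 h1).node ν hν hν1
    have e : ∀ (y : Obs 3 (n + 1)) i, lik 3 lam ν (n + 1) y i = N.V y i := by
      rintro ⟨k, ys⟩ i
      simp only [lik, sum_potts_eq_mixv]
      rfl
    refine ⟨fun y i => by rw [e]; exact N.nonneg y i, fun i => ?_, fun π => ?_⟩
    · simp only [e]; exact N.total i
    · obtain ⟨f, hf⟩ := N.sym π
      exact ⟨f, fun y i => by rw [e, e]; exact hf y i⟩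

/-- The channel of depth `n`. -/
noncomputable def chanNeg (h0 : -lim ≤ lam) (h1 : lam ≤ 0) (hν : ∀ k, 0 ≤ ν k) (hν1 : HasSum ν 1)
    (n : ℕ) : Chan :=
  ⟨Obs 3 n, lik 3 lam ν n, (lik_facts h0 h1 hν hν1 n).1, (lik_facts h0 h1 hν hν1 n).2.1,
    (lik_facts h0 h1 hν hν1 n).2.2⟩

lemma chanNeg_succ (h0 : -lim ≤ lam) (h1 : lam ≤ 0) (hν : ∀ k, 0 ≤ ν k) (hν1 : HasSum ν 1)
    (n : ℕ) (F : (Fin 3 → ℝ) → ℝ) :
    (chanNeg h0 h1 hν hν1 (n + 1)).E F =
      ((mixNeg (chanNeg h0 h1 hν hν1 n) lam h0 h1).node ν hν hν1).E F := by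
  simp only [Chan.E]
  refine tsum_congr fun y => congrArg F (funext fun i => ?_)
  obtain ⟨k, ys⟩ := y
  simp only [chanNeg, lik, sum_potts_eq_mixv]
  rfl

/-- Nonreconstruction for `-0.19612 ≤ lam ≤ 0` whenever `m lam² ≤ 1`. -/
theorem nonrecon_of_le (h0 : -lim ≤ lam) (h1 : lam ≤ 0) (hν : ∀ k, 0 ≤ ν k) (hν1 : HasSum ν 1)
    {m : ℝ} (hm : HasSum (fun k => ν k * k) m) (hk : ∃ k₀, 2 ≤ k₀ ∧ 0 < ν k₀)
    (hle : m * lam ^ 2 ≤ 1) : Tendsto (advantage 3 lam ν) atTop (𝓝 0) := by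
  obtain ⟨k₀, hk₀, hpos⟩ := hk
  set T := chanNeg h0 h1 hν hν1
  have nonneg : ∀ n, 0 ≤ (T n).E fB := fun n => (T n).E_nonneg fun L hL => fB_nonneg hL
  have rec' : ∀ n, (T (n + 1)).E fB ≤
      (m * lam ^ 2) * (T n).E fB - ν k₀ / 500 * lam ^ 4 * (T n).E fB ^ 2 := by
    intro n
    rw [chanNeg_succ]
    have eB : (mixNeg (T n) lam h0 h1).E fB = lam ^ 2 * (T n).E fB := by
      simp only [Chan.E, mixNeg, fB_mixv]; exact tsum_mul_left
    have hx : (T n).E fB ≤ 2 := hasSum_le (fun y => fB_le_two ((T n).nonneg y))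
      ((T n).summable adm_fB).hasSum (by simpa using (T n).hasSum_pP.mul_left 2)
    have hs : (mixNeg (T n) lam h0 h1).E fB ≤ 2 / 25 := by
      rw [eB]
      have h0' := h0
      simp only [lim] at h0'
      have : lam ^ 2 ≤ 1 / 25 := by nlinarith
      nlinarith [mul_le_mul this hx (nonneg n) (by norm_num)]
    have := node_bound (mixNeg (T n) lam h0 h1)
      (fun y => (mixv_nonneg_neg h0 h1 ((T n).nonneg y)).1) hs
      (tsum_nonneg fun y => fR_mixv_nonneg h0 h1 ((T n).nonneg y)) ν hν hν1 hm hk₀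
    rw [eB] at this
    linarith
  have hB : Tendsto (fun n => (T n).E fB) atTop (𝓝 0) := by
    rcases h1.lt_or_eq with hl | hl
    · exact tendsto_zero_of_quad nonneg hle
        (mul_pos (div_pos hpos (by norm_num)) (Even.pow_pos (by decide) hl.ne)) rec'
    · refine tendsto_atTop_of_eventually_const (i₀ := 1) fun n hn => ?_
      obtain ⟨j, rfl⟩ : ∃ j, n = j + 1 := ⟨n - 1, by omega⟩
      have := rec' j
      rw [hl] at this
      have := nonneg (j + 1)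
      simp at *
      linarith
  refine (Chan.fA_tendsto_zero hB).congr fun n => ?_
  simp only [advantage, Chan.E, T, chanNeg, fA, Nat.cast_ofNat]

end Vale.Agent.P154.AF
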